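import Crest.Agent.N067.F.Hf

/-!
# Row 67, FLUX, case F (helper10): parallel planes up to a given height; one side of a sheet
-/

set_option autoImplicit false
set_option linter.unusedVariables false

open InnerProductSpace Set Metric Topology Filter
open scoped RealInnerProductSpace Gradient

namespace Crest.Agent.N067.M.Pn

open Crest.Agent.R077 Crest.Agent.N067.V Crest.Agent.N067.M.Wd

variable {n : ℕ} {v : EE n → ℝ}

/-- `tilt` with a separate bound for the height -/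
theorem tiltH {S δ R D H : ℝ} {b y : EE n} (hb : Pl v S δ R b) (hy : Pl v S δ R y) (hS : 0 ≤ S)
    (hδ : 0 ≤ δ) (hD : ‖y - b‖ ≤ D) (hH : |⟪nu v b, y - b⟫| ≤ H) (hR : 2 * D ≤ R) (hR0 : 0 < R) :
    ∃ σ : ℝ, (σ = 1 ∨ σ = -1) ∧ ‖nu v y - σ • nu v b‖ ≤ 2 * δ + 3 * H / R := by
  have he := hb.unit
  have he' := hy.unit
  have hH0 := (abs_nonneg _).trans hH
  generalize hE : nu v b = e at *
  generalize hE' : nu v y = e' at *
  have ee : ⟪e, e⟫ = (1 : ℝ) := by rw [real_inner_self_eq_norm_sq, he]; norm_num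
  have ee' : ⟪e', e'⟫ = (1 : ℝ) := by rw [real_inner_self_eq_norm_sq, he']; norm_num
  set c := ⟪e, e'⟫ with hc
  have hc' : ⟪e', e⟫ = c := real_inner_comm _ _
  set u := e - c • e' with hu
  have u1 : ⟪e, u⟫ = 1 - c ^ 2 := by rw [hu, inner_sub_right, real_inner_smul_right, ee]; ring
  have u2 : ⟪e', u⟫ = 0 := by rw [hu, inner_sub_right, real_inner_smul_right, ee', hc']; ring
  have u3 : ‖u‖ ^ 2 = 1 - c ^ 2 := by
    rw [← real_inner_self_eq_norm_sq]
    conv_lhs => rw [show ⟪u, u⟫ = ⟪e - c • e', u⟫ from rfl]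
    rw [inner_sub_left, real_inner_smul_left, u1, u2]; ring
  have hq : 0 ≤ 3 * H / R := by positivity
  by_cases hcase : ‖u‖ ≤ 2 * H / R
  · have hc1 : |c| ≤ 1 := (abs_real_inner_le_norm _ _).trans (by rw [he, he']; norm_num)
    have key : ∀ σ : ℝ, σ ^ 2 = 1 → σ * c = |c| → ‖e' - σ • e‖ ≤ 2 * δ + 3 * H / R := by
      intro σ h1 h2
      have n1 : ‖e' - σ • e‖ ^ 2 = 2 - 2 * |c| := by
        rw [norm_sub_sq_real, norm_smul, real_inner_smul_right, he, he', hc', h2, mul_pow,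
          Real.norm_eq_abs, sq_abs, h1]; ring
      have n2 : ‖u‖ ^ 2 ≤ (2 * H / R) ^ 2 := by gcongr
      have n3 : (3 * H / R) ^ 2 = 9 / 4 * (2 * H / R) ^ 2 := by ring
      have n4 : ‖e' - σ • e‖ ≤ 3 * H / R := by
        refine le_of_sq_le_sq ?_ hq
        have := sq_abs c
        have := abs_nonneg c
        nlinarith
      linarith
    rcases le_total 0 c with h | h
    · exact ⟨1, Or.inl rfl, key 1 (by norm_num) (by rw [abs_of_nonneg h, one_mul])⟩
    · exact ⟨-1, Or.inr rfl, key (-1) (by norm_num) (by rw [abs_of_nonpos h]; ring)⟩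
  · push Not at hcase
    have hu0 : 0 < ‖u‖ := lt_of_le_of_lt (by positivity) hcase
    set p := y - (⟪e, y - b⟫ / ‖u‖ ^ 2) • u with hp
    have p1 : ‖p - y‖ ≤ R / 2 := by
      rw [hp, sub_sub_cancel_left, norm_neg, norm_smul, Real.norm_eq_abs, abs_div,
        abs_of_pos (pow_pos hu0 2), div_mul_eq_mul_div, div_le_iff₀ (pow_pos hu0 2)]
      rw [div_lt_iff₀ hR0] at hcase
      nlinarith
    have p2 : ‖p - b‖ ≤ R := by linarith [norm_sub_le_norm_sub_add_norm_sub p y b]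
    have p3 : ⟪e, p - b⟫ = 0 := by
      rw [show p - b = (y - b) - (⟪e, y - b⟫ / ‖u‖ ^ 2) • u by rw [hp]; abel, inner_sub_right,
        real_inner_smul_right, u1, ← u3]
      field_simp
      ring
    have p4 : ⟪e', p - y⟫ = 0 := by
      rw [hp, sub_sub_cancel_left, inner_neg_right, real_inner_smul_right, u2]; ring
    have q1 := (hb.near p (mem_closedBall_iff_norm.2 p2) (by rw [hE, p3, abs_zero]; exact hS)).2.1
    have q2 := (hy.near p (mem_closedBall_iff_norm.2 (by linarith))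
      (by rw [hE', p4, abs_zero]; exact hS)).2.1
    rw [hE] at q1
    rw [hE', norm_sub_rev] at q2
    refine ⟨1, Or.inl rfl, ?_⟩
    rw [one_smul]
    linarith [norm_sub_le_norm_sub_add_norm_sub e' (nn v p) e]

/-- all zeros near `b` of height at most `H` lie on planes parallel to `e^⊥` -/
structure ParH (v : EE n → ℝ) (S ε D H : ℝ) (b e : EE n) : Prop where
  sol : Sol v
  unit : ‖e‖ = 1
  S2 : 2 ≤ S
  e0 : 0 ≤ ε
  e1 : ε ≤ 1 / 8
  D1 : 1 ≤ D
  par : ∀ y ∈ closedBall b D, v y = 0 → |⟪e, y - b⟫| ≤ H → ∃ σ : ℝ, (σ = 1 ∨ σ = -1) ∧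
    ∀ w ∈ closedBall b (2 * D), |⟪e, w - y⟫| ≤ S →
      |dd v w - σ * ⟪e, w - y⟫| ≤ ε ∧ ‖nn v w - σ • e‖ ≤ ε

theorem parH_of_pl (hv : Sol v) {S δ R D H ε : ℝ} {b : EE n} (hS : 2 ≤ S) (hδ : 0 ≤ δ)
    (hD : 1 ≤ D) (hH : 0 ≤ H) (hR : 3 * D ≤ R) (hb : v b = 0)
    (h : ∀ y ∈ closedBall b D, v y = 0 → Pl v (S + 1) δ R y)
    (hε : δ + 3 * D * (2 * δ + 3 * H / R) ≤ ε) (hε1 : ε ≤ 1 / 8) :
    ParH v S ε D H b (nu v b) := by
  have hb' := h b (mem_closedBall_self (by linarith)) hb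
  have hR0 : 0 < R := by linarith
  have hθ : 0 ≤ 2 * δ + 3 * H / R := by positivity
  have hθ1 : 2 * δ + 3 * H / R ≤ 3 * D * (2 * δ + 3 * H / R) :=
    le_mul_of_one_le_left hθ (by linarith)
  refine ⟨hv, hb'.unit, hS, by linarith, hε1, hD, fun y hy hy0 hyH => ?_⟩
  have hyb := mem_closedBall_iff_norm.1 hy
  obtain ⟨σ, hσ, h1⟩ := tiltH hb' (h y hy hy0) (by linarith) hδ hyb hyH (by linarith) hR0
  refine ⟨σ, hσ, fun w hw hh => ?_⟩
  have hwb := mem_closedBall_iff_norm.1 hw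
  have hwy : ‖w - y‖ ≤ 3 * D := by
    have := norm_sub_le_norm_sub_add_norm_sub w b y
    rw [norm_sub_rev b y] at this
    linarith
  have a1 : |⟪nu v y, w - y⟫ - σ * ⟪nu v b, w - y⟫| ≤ 3 * D * (2 * δ + 3 * H / R) := by
    rw [← real_inner_smul_left, ← inner_sub_left, mul_comm]
    exact (abs_real_inner_le_norm _ _).trans (mul_le_mul h1 hwy (norm_nonneg _) hθ)
  have a2 : |σ * ⟪nu v b, w - y⟫| ≤ S := by
    rcases hσ with rfl | rfl <;> simpa using hh
  obtain ⟨q1, q2, q3⟩ := (h y hy hy0).near w (mem_closedBall_iff_norm.2 (by linarith)) (by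
    have := abs_sub_abs_le_abs_sub ⟪nu v y, w - y⟫ (σ * ⟪nu v b, w - y⟫)
    linarith)
  refine ⟨?_, ?_⟩
  · have := abs_sub_le (dd v w) ⟪nu v y, w - y⟫ (σ * ⟪nu v b, w - y⟫)
    linarith
  · linarith [norm_sub_le_norm_sub_add_norm_sub (nn v w) (nu v y) (σ • nu v b)]

theorem axis_in {e : EE n} (he : ‖e‖ = 1) (b : EE n) (s : ℝ) (y : EE n) :
    ⟪e, b + s • e - y⟫ = s - ⟪e, y - b⟫ := by
  rw [show b + s • e - y = s • e - (y - b) by abel, inner_sub_right, real_inner_smul_right,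
    real_inner_self_eq_norm_sq, he]
  ring

theorem abs_in {e : EE n} (he : ‖e‖ = 1) (w : EE n) : |⟪e, w⟫| ≤ ‖w‖ :=
  (abs_real_inner_le_norm _ _).trans (by rw [he, one_mul])

theorem axis_ball {e : EE n} (he : ‖e‖ = 1) (b : EE n) {s r : ℝ} (hs : |s| ≤ r) :
    b + s • e ∈ closedBall b r := by
  rw [mem_closedBall_iff_norm, add_sub_cancel_left, norm_smul, he, mul_one]
  exact hs

namespace ParH

variable {S ε D H : ℝ} {b e : EE n}

theorem neg (h : ParH v S ε D H b e) : ParH v S ε D H b (-e) :=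
  ⟨h.sol, by rw [norm_neg]; exact h.unit, h.S2, h.e0, h.e1, h.D1, fun y hy hy0 hH => by
    obtain ⟨σ, hσ, h1⟩ := h.par y hy hy0 (by rwa [inner_neg_left, abs_neg] at hH)
    refine ⟨-σ, by rcases hσ with rfl | rfl <;> simp, fun w hw hh => ?_⟩
    rw [inner_neg_left, abs_neg] at hh
    simpa [inner_neg_left] using h1 w hw hh⟩

theorem ng (h : ParH v S ε D H b e) : ParH (M.ng v) S ε D H b e :=
  ⟨h.sol.neg', h.unit, h.S2, h.e0, h.e1, h.D1, fun y hy hy0 hH => by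
    obtain ⟨σ, hσ, h1⟩ := h.par y hy (by simpa [M.ng] using hy0) hH
    have hd : dd (M.ng v) = fun x => -dd v x := funext h.sol.dd_neg'
    have hn : ∀ x, nn (M.ng v) x = -nn v x := fun x => by
      simp only [nn, hd, gradient, fderiv_fun_neg, map_neg]
    refine ⟨-σ, by rcases hσ with rfl | rfl <;> simp, fun w hw hh => ?_⟩
    obtain ⟨q1, q2⟩ := h1 w hw hh
    refine ⟨?_, ?_⟩
    · rw [hd, ← abs_neg]; convert q1 using 2; ring
    · rwa [hn, show -nn v w - -σ • e = -(nn v w - σ • e) by module, norm_neg]⟩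

/-- a zero at height `a` forces a negative value on the axis near the height `a` -/
theorem signs (h : ParH v S ε D H b e) {y : EE n} (hy : y ∈ closedBall b D)
    (hy0 : v y = 0) (hH : |⟪e, y - b⟫| ≤ H) {c : ℝ} (hc : ε < c) (hc1 : c ≤ 1) :
    v (b + (⟪e, y - b⟫ + c) • e) < 0 ∨ v (b + (⟪e, y - b⟫ - c) • e) < 0 := by
  obtain ⟨σ, hσ, h1⟩ := h.par y hy hy0 hH
  have ha := abs_le.1 ((abs_in h.unit (y - b)).trans (mem_closedBall_iff_norm.1 hy))
  have hS := h.S2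
  have h0 := h.e0
  have hD := h.D1
  have key : ∀ c' : ℝ, |c'| ≤ 1 → |dd v (b + (⟪e, y - b⟫ + c') • e) - σ * c'| ≤ ε := by
    intro c' h2
    have h3 := abs_le.1 h2
    have := (h1 (b + (⟪e, y - b⟫ + c') • e)
      (axis_ball h.unit b (abs_le.2 ⟨by linarith, by linarith⟩))
      (by rw [axis_in h.unit, add_sub_cancel_left]; linarith)).1
    rwa [axis_in h.unit, add_sub_cancel_left] at this
  rcases hσ with rfl | rfl
  · have := abs_le.1 (key (-c) (by rw [abs_neg, abs_of_nonneg (by linarith)]; exact hc1))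
    exact Or.inr (neg_of_dd h.sol (by rw [sub_eq_add_neg]; linarith))
  · have := abs_le.1 (key c (by rw [abs_of_nonneg (by linarith)]; exact hc1))
    exact Or.inl (neg_of_dd h.sol (by linarith))

/-- positivity on the axis gives positivity in the slab -/
theorem pos (h : ParH v S ε D H b e) {s1 s2 c : ℝ} (hc : ε < c) (hc1 : c ≤ 1) (k1 : -H ≤ s1)
    (k2 : s2 ≤ H) (hax : ∀ s, s1 ≤ s → s ≤ s2 → 0 < v (b + s • e)) {w : EE n}
    (hw : w ∈ closedBall b D) (h1 : s1 + c ≤ ⟪e, w - b⟫) (h2 : ⟪e, w - b⟫ ≤ s2 - c) : 0 < v w := by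
  have h0 := h.e0
  have hcv : Convex ℝ (closedBall b D ∩ {w | s1 + c + ⟪e, b⟫ ≤ ⟪e, w⟫} ∩
      {w | ⟪e, w⟫ ≤ s2 - c + ⟪e, b⟫}) :=
    ((convex_closedBall b D).inter (convex_halfSpace_ge (innerSL ℝ e).toLinearMap.isLinear _)).inter
      (convex_halfSpace_le (innerSL ℝ e).toLinearMap.isLinear _)
  have hm : ∀ x, x ∈ closedBall b D → s1 + c ≤ ⟪e, x - b⟫ → ⟪e, x - b⟫ ≤ s2 - c →
      x ∈ closedBall b D ∩ {w | s1 + c + ⟪e, b⟫ ≤ ⟪e, w⟫} ∩ {w | ⟪e, w⟫ ≤ s2 - c + ⟪e, b⟫} :=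
    fun x a1 a2 a3 => by
      rw [inner_sub_right] at a2 a3
      exact ⟨⟨a1, by simp only [mem_ofPred_eq]; linarith⟩, by simp only [mem_ofPred_eq]; linarith⟩
  have e1 : ⟪e, b + ⟪e, w - b⟫ • e - b⟫ = ⟪e, w - b⟫ := by rw [axis_in h.unit]; simp
  refine pos_conv h.sol.sm.continuous hcv (fun x hx hx0 => ?_) (x0 := b + ⟪e, w - b⟫ • e)
    (hm _ (axis_ball h.unit b ((abs_in h.unit _).trans (mem_closedBall_iff_norm.1 hw)))
      (by rwa [e1]) (by rwa [e1])) (hax _ (by linarith) (by linarith)) (hm w hw h1 h2)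
  have a2 : s1 + c + ⟪e, b⟫ ≤ ⟪e, x⟫ := hx.1.2
  have a3 : ⟪e, x⟫ ≤ s2 - c + ⟪e, b⟫ := hx.2
  have a4 : ⟪e, x - b⟫ = ⟪e, x⟫ - ⟪e, b⟫ := inner_sub_right _ _ _
  rcases h.signs hx.1.1 hx0 (abs_le.2 ⟨by linarith, by linarith⟩) hc hc1 with q | q
  · exact absurd (hax _ (by linarith) (by linarith)) q.not_gt
  · exact absurd (hax _ (by linarith) (by linarith)) q.not_gt

/-- the plane of a zero with `v ≥ 0` just below it on the axis has normal `-e` -/
theorem down (h : ParH v S ε D H b e) {y : EE n} (hy : y ∈ closedBall b D) (hy0 : v y = 0)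
    (hH : |⟪e, y - b⟫| ≤ H) {c : ℝ} (hc : ε < c) (hc1 : c ≤ 1)
    (hp : 0 ≤ v (b + (⟪e, y - b⟫ - c) • e)) : ∀ w ∈ closedBall b (2 * D), |⟪-e, w - y⟫| ≤ S →
      |dd v w - ⟪-e, w - y⟫| ≤ ε ∧ ‖nn v w - -e‖ ≤ ε := by
  obtain ⟨σ, hσ, h1⟩ := h.par y hy hy0 hH
  have ha := abs_le.1 ((abs_in h.unit (y - b)).trans (mem_closedBall_iff_norm.1 hy))
  have hS := h.S2
  have h0 := h.e0
  have hD := h.D1
  rcases hσ with rfl | rfl
  · have := (h1 (b + (⟪e, y - b⟫ - c) • e)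
      (axis_ball h.unit b (abs_le.2 ⟨by linarith, by linarith⟩))
      (by rw [axis_in h.unit, sub_sub_cancel_left, abs_neg, abs_of_nonneg (by linarith)]
          linarith)).1
    rw [axis_in h.unit, sub_sub_cancel_left] at this
    exact absurd hp (neg_of_dd h.sol (by linarith [abs_le.1 this])).not_ge
  · intro w hw hh
    rw [inner_neg_left, abs_neg] at hh
    simpa [inner_neg_left] using h1 w hw hh

end ParH

/-- **one side of a sheet**: coarse estimates of `d`, `n` and the fine estimate of `t` -/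
theorem side (n : ℕ) : ∃ S0 C : ℝ, 2 ≤ S0 ∧ 1 ≤ C ∧ ∀ v : EE n → ℝ, Sol v →
    ∀ (y e q : EE n) (S ε δ R l R1 : ℝ), ‖e‖ = 1 → S0 ≤ S → 0 ≤ ε → 0 ≤ δ → 0 ≤ l → l + 2 ≤ R →
    R + l + S + 3 ≤ R1 → (ε + δ) * R1 ≤ 1 / 4 →
    (∀ w ∈ closedBall q R1, |⟪e, w - y⟫| ≤ S → |dd v w - ⟪e, w - y⟫| ≤ ε ∧ ‖nn v w - e‖ ≤ ε) →
    (∀ z ∈ closedBall q R1, v z = 0 → Pl v (S + 1) δ R1 z) →
    (∀ w ∈ closedBall q R1, 1 / 2 ≤ ⟪e, w - y⟫ → ⟪e, w - y⟫ ≤ R1 → 0 < v w) →
    -S ≤ ⟪e, q - y⟫ → ⟪e, q - y⟫ ≤ l →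
    |dd v q - ⟪e, q - y⟫| ≤ C * (ε + Real.exp (2 * l - R / 20)) ∧
      ‖nn v q - e‖ ≤ C * (ε + Real.exp (2 * l - R / 20)) ∧
      tt v q ≤ C * (δ + Real.exp (2 * l - R / 20)) := by
  obtain ⟨S0, C, hS0, hC, H⟩ := half n
  have h3 : 1 ≤ Real.exp 1 := Real.one_le_exp zero_le_one
  refine ⟨S0, C * Real.exp 1, hS0, by nlinarith,
    fun v hv y e q S ε δ R l R1 he hS hε hδ hl hR hR1 hs hP hPl hZ h1 h2 => ?_⟩
  have hC1 : C ≤ C * Real.exp 1 := le_mul_of_one_le_right (by linarith) h3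
  have hE := Real.exp_pos (2 * l - R / 20)
  have hs1 : ε + δ ≤ 1 / 8 := by nlinarith
  have hup : ∀ a, 0 ≤ a → a ≤ C * Real.exp 1 * (a + Real.exp (2 * l - R / 20)) := fun a ha =>
    le_trans (by linarith) (le_mul_of_one_le_left (by positivity) (by linarith))
  have hup2 : ∀ a s, 0 ≤ a → s ≤ l + 1 / 2 → C * (a + Real.exp (2 * s - R / 20)) ≤
      C * Real.exp 1 * (a + Real.exp (2 * l - R / 20)) := fun a s ha hs => by
    have : Real.exp (2 * s - R / 20) ≤ Real.exp 1 * Real.exp (2 * l - R / 20) := by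
      rw [← Real.exp_add]; exact Real.exp_le_exp.2 (by linarith)
    rw [mul_assoc]
    exact mul_le_mul_of_nonneg_left (by nlinarith) (by linarith)
  set h := ⟪e, q - y⟫ with hh
  have hab : |h| ≤ l + S := abs_le.2 ⟨by linarith, by linarith⟩
  -- the zero below `q`
  have hline : ∀ s : ℝ, |s| ≤ 1 → q + (s - h) • e ∈ closedBall q R1 ∧
      ⟪e, q + (s - h) • e - y⟫ = s := fun s hs => ⟨axis_ball he q ((abs_sub _ _).trans
        (by linarith)), by rw [axis_in he, ← neg_sub q y, inner_neg_right]; ring⟩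
  have hval : ∀ s : ℝ, |s| ≤ 1 → |dd v (q + (s - h) • e) - s| ≤ ε ∧
      ‖nn v (q + (s - h) • e) - e‖ ≤ ε := fun s hs => by
    have := hP _ (hline s hs).1 (by rw [(hline s hs).2]; linarith)
    rwa [(hline s hs).2] at this
  have hc : Continuous fun s : ℝ => dd v (q + (s - h) • e) :=
    (hv.dd_cd 0).continuous.comp (by fun_prop)
  obtain ⟨s, hs1', hs0⟩ := intermediate_value_Icc (show (-1 / 4 : ℝ) ≤ 1 / 4 by norm_num)
    hc.continuousOn (show (0 : ℝ) ∈ _ from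
      ⟨by linarith [abs_le.1 (hval (-1 / 4) (by rw [abs_le]; norm_num)).1],
        by linarith [abs_le.1 (hval (1 / 4) (by rw [abs_le]; norm_num)).1]⟩)
  have hsa : |s| ≤ 1 / 4 := abs_le.2 ⟨by linarith [hs1'.1], hs1'.2⟩
  set z := q + (s - h) • e with hz
  have hz1 := hline s (by linarith)
  have pz := hPl z hz1.1 ((dd_zero_iff hv).1 hs0)
  have hR10 : 0 ≤ R1 := by linarith
  have hν : ‖nu v z - e‖ ≤ ε + δ := by
    have a1 := (pz.near z (mem_closedBall_self hR10) (by simp; linarith)).2.1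
    have a2 := (hval s (by linarith)).2
    rw [norm_sub_rev] at a1
    linarith [norm_sub_le_norm_sub_add_norm_sub (nu v z) (nn v z) e]
  have hqz : ‖q - z‖ ≤ l + S + 1 := by
    rw [hz, sub_add_cancel_left, norm_neg, norm_smul, he, mul_one]
    exact (abs_sub _ _).trans (by linarith)
  have hcmp : ∀ w, ‖w - z‖ ≤ R1 → |⟪nu v z, w - z⟫ - ⟪e, w - y⟫| ≤ 1 / 2 := fun w hw => by
    have a1 : |⟪nu v z - e, w - z⟫| ≤ (ε + δ) * R1 :=
      (abs_real_inner_le_norm _ _).trans (mul_le_mul hν hw (norm_nonneg _) (by linarith))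
    have a2 : ⟪e, w - y⟫ = ⟪e, w - z⟫ + s := by
      rw [show w - y = (w - z) + (z - y) by abel, inner_add_right, hz1.2]
    rw [inner_sub_left] at a1
    rw [a2, abs_le] at *
    constructor <;> linarith [a1.1, a1.2, hsa.1, hsa.2]
  have hq := abs_le.1 (hcmp q (by linarith))
  rcases le_total h S with k | k
  · obtain ⟨a1, a2⟩ := hP q (mem_closedBall_self hR10) (abs_le.2 ⟨h1, k⟩)
    have a3 := (pz.near q (mem_closedBall_iff_norm.2 (by linarith))
      (abs_le.2 ⟨by linarith, by linarith⟩)).2.2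
    exact ⟨a1.trans (hup ε hε), a2.trans (hup ε hε), a3.trans (le_trans (by nlinarith) (hup δ hδ))⟩
  have hin : ∀ w ∈ closedBall q (R + S0 + 1), w ∈ closedBall q R1 ∧ ‖w - z‖ ≤ R1 ∧
      ⟪e, w - y⟫ ≤ R1 := fun w hw => by
    have a1 := mem_closedBall_iff_norm.1 hw
    have a2 := (abs_le.1 (abs_in he (w - q))).2
    have a3 : ⟪e, w - y⟫ = ⟪e, w - q⟫ + h := by rw [hh, ← inner_add_right]; simp
    have a4 : ‖q - z‖ ≤ l + 1 := by
      rw [hz, sub_add_cancel_left, norm_neg, norm_smul, he, mul_one]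
      exact (abs_sub _ _).trans (by rw [abs_of_nonneg (by linarith : 0 ≤ h)]; linarith)
    exact ⟨mem_closedBall_iff_norm.2 (by linarith),
      by linarith [norm_sub_le_norm_sub_add_norm_sub w q z], by linarith⟩
  obtain ⟨b1, b2, -⟩ := H v hv y e q R ε he hε
    (fun w hw a => hZ w (hin w hw).1 (by linarith) (hin w hw).2.2)
    (fun w hw a => (hP w (closedBall_subset_closedBall (by linarith) hw) (a.trans hS)).1)
    (by linarith) (by rw [abs_of_nonneg (by linarith : 0 ≤ h)]; linarith)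
  obtain ⟨-, -, b3⟩ := H v hv z (nu v z) q R δ pz.unit hδ
    (fun w hw a => hZ w (hin w hw).1 (by linarith [abs_le.1 (hcmp w (hin w hw).2.1)])
      (hin w hw).2.2)
    (fun w hw a => (pz.near w (mem_closedBall_iff_norm.2
      (hin w (closedBall_subset_closedBall (by linarith) hw)).2.1) (by linarith)).1)
    (by linarith) (by rw [abs_of_nonneg (by linarith)]; linarith)
  exact ⟨b1.trans (hup2 ε h hε (by linarith)), b2.trans (hup2 ε h hε (by linarith)),
    b3.trans (hup2 δ _ hδ (by linarith))⟩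

end Crest.Agent.N067.M.Pn
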