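import Crest.Agent.N067.F.Flat1
import Crest.Agent.N067.Y.GE

/-!
# Row 67, block FLAT (helper72), part 2: `t ψ^δ ≤ C κ²` near a flat point (no logarithm)
-/

set_option autoImplicit false

open MeasureTheory Laplacian InnerProductSpace Topology Filter Set Metric
open scoped RealInnerProductSpace ContDiff Gradient

namespace Crest.Agent.N067

open Crest.Agent.R077 V Y

noncomputable section

variable {n : ℕ} {v : EE n → ℝ}

/-- `Y = ψ^δ t` is a subsolution with a gap where the slope is at least `1/4` -/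
theorem Sol.lap_Y (h : Sol v) {δ : ℝ} (h0 : 0 < δ) (h1 : δ ≤ 1 / 16) {y : EE n}
    (hN : tt v y ≤ 15 / 16) :
    δ * (pb (δ - 1) v y * tt v y) - 2 * hsq (dd v) y ≤ (Δ fun z => pb (δ - 1) v z * tt v z) y
      + 2 * √2 * (δ - 1) * v y * gin (dd v) (fun z => pb (δ - 1) v z * tt v z) y := by
  have h2 := h.Lm_tt y
  have p0 := pb_pos h (δ - 1) y
  have p1 : pb (δ - 1) v y ≤ 1 :=
    Real.rpow_le_one (h.psi_pos y).le (psi_le_one v y) (by linarith)
  have t0 := h.tt_nonneg y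
  have s0 := h.psi_pos y
  have e : v y ^ 2 = 1 - psi v y := by rw [psi]; ring
  have s1 := psi_le_one v y
  rw [lap_pb_mul h _ (h.tt_cd 2),
    show Lm v (tt v) y = 2 * (psi v y * tt v y * (1 - tt v y) - hsq (dd v) y) by
      unfold qq at h2; linarith, e]
  have k1 : δ ≤ (2 - δ) * psi v y * (1 - tt v y) + 2 * δ * (2 - δ) * (1 - psi v y) * (1 - tt v y)
      + 2 * δ * (1 - psi v y) * tt v y := by
    have a1 : δ * psi v y ≤ (2 - δ) * psi v y * (1 - tt v y) := by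
      have : δ ≤ (2 - δ) * (1 - tt v y) := by nlinarith
      nlinarith
    have a2 : 0 ≤ δ * (1 - psi v y) := mul_nonneg h0.le (by linarith)
    have a3 : 1 ≤ 2 * (2 - δ) * (1 - tt v y) + 2 * tt v y := by nlinarith
    nlinarith [mul_le_mul_of_nonneg_left a3 a2]
  have k2 := mul_le_mul_of_nonneg_left k1 (mul_nonneg p0.le t0)
  have k3 := mul_le_mul_of_nonneg_right p1 (hsq_nonneg (dd v) y)
  nlinarith

theorem Sol.abs_drift (h : Sol v) {δ : ℝ} (h0 : 0 < δ) (h1 : δ ≤ 1) (z : EE n) :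
    |2 * √2 * (δ - 1) * v z| ≤ 3 := by
  have a1 : √2 ≤ 3 / 2 := Real.sqrt_le_iff.2 ⟨by norm_num, by norm_num⟩
  rw [abs_mul, abs_mul, abs_of_pos (by positivity : 0 < 2 * √2),
    abs_of_nonpos (by linarith : δ - 1 ≤ 0)]
  have a2 := mul_le_mul (show 2 * √2 ≤ 3 by linarith) (show -(δ - 1) ≤ 1 by linarith)
    (by linarith) (by norm_num)
  exact (mul_le_mul a2 (h.lt z).le (abs_nonneg _) (by norm_num)).trans_eq (by norm_num)

theorem tsq_alg {a R r δ Y H L b g m c : ℝ} (ha : 0 ≤ a) (hR : 0 ≤ R) (hδ : 0 < δ) (hc : 0 ≤ c)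
    (k1 : δ * Y - 2 * H ≤ L + b * (a * (2 * (R + r ^ 2) * g))) (k6 : b * g ≤ 6 * r)
    (R2 : 4 * m + 8 + 12 * r ≤ δ / 2 * (R + r ^ 2)) (hW : a * (R + r ^ 2) ^ 2 < Y)
    (hH : H ≤ 4 * c) (hA : δ * (a * (R + r ^ 2) ^ 2) = 64 * c) :
    a * (2 * (R + r ^ 2) * (0 + 2 * m) + 2 * (4 * r ^ 2)) - L < 0 := by
  have a0 : 0 ≤ a * (R + r ^ 2) := by positivity
  have m1 := mul_le_mul_of_nonneg_left k6 a0
  have m2 := mul_le_mul_of_nonneg_left R2 a0
  have m3 := mul_lt_mul_of_pos_left hW hδ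
  have m5 : 0 ≤ a * R := by positivity
  linarith

theorem flat_tsq0 (n : ℕ) {δ : ℝ} (h0 : 0 < δ) (h1 : δ ≤ 1 / 16) : ∃ C : ℝ, 1 ≤ C ∧
    ∀ (v : EE n → ℝ) (κ : ℝ) (x : EE n), Sol v → Flat v κ x → 1 / 2 ≤ ‖∇ (dd v) x‖ → ∀ y,
      pb (δ - 1) v y * tt v y ≤ C * (κ * (1 + ‖y - x‖) ^ 2) ^ 2 := by
  obtain ⟨C, hC, hb⟩ := flat_bd n
  obtain ⟨R, hR⟩ : ∃ R : ℝ, R = 1 + 2 / δ * (4 * n + 8 + 72 / δ) := ⟨_, rfl⟩
  have R1 : 1 ≤ R := by rw [hR]; exact le_add_of_nonneg_right (by positivity)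
  have R2 : ∀ r : ℝ, 4 * n + 8 + 12 * r ≤ δ / 2 * (R + r ^ 2) := fun r => by
    have e : δ / 2 * R = δ / 2 + (4 * n + 8 + 72 / δ) := by rw [hR]; field_simp
    have : 12 * r ≤ δ / 2 * r ^ 2 + 72 / δ := by
      rw [← sub_nonneg, show δ / 2 * r ^ 2 + 72 / δ - 12 * r = (δ * r - 12) ^ 2 / (2 * δ) by
        field_simp; ring]
      positivity
    nlinarith
  obtain ⟨A, hA⟩ : ∃ A : ℝ, A = 64 * C ^ 2 / δ := ⟨_, rfl⟩
  have C2 : 1 ≤ C ^ 2 := one_le_pow₀ hC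
  have A1 : δ * A = 64 * C ^ 2 := by rw [hA]; field_simp
  have A0 : 0 ≤ A := by rw [hA]; positivity
  have A2 : 64 * C ^ 2 ≤ A := by nlinarith
  refine ⟨A * R ^ 2, one_le_mul_of_one_le_of_one_le (by linarith) (one_le_pow₀ R1),
    fun v κ x h hF hN y => ?_⟩
  have Y1 : ∀ z, pb (δ - 1) v z * tt v z ≤ tt v z := fun z => mul_le_of_le_one_left (h.tt_nonneg z)
    (Real.rpow_le_one (h.psi_pos z).le (psi_le_one v z) (by linarith))
  rcases (hF.nonneg hN).eq_or_lt with hκ | hκ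
  · have := (hb v κ x h hF hN y).2.1
    rw [← hκ] at this ⊢
    simpa using (Y1 y).trans this
  have cf : ContDiff ℝ 2 fun z : EE n => R + ‖z - x‖ ^ 2 := contDiff_const.add (contDiff_sq x)
  have cY : ContDiff ℝ 2 fun z => pb (δ - 1) v z * tt v z := (pb_cd h _ 2).mul (h.tt_cd 2)
  have cE : ContDiff ℝ 2 fun z : EE n => A * κ ^ 2 * (R + ‖z - x‖ ^ 2) ^ 2 :=
    contDiff_const.mul (cf.pow 2)
  have key := mp_ball (W := fun z => A * κ ^ 2 * (R + ‖z - x‖ ^ 2) ^ 2 - pb (δ - 1) v z * tt v z)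
    (cE.sub cY) (y := x) (r := 1 + 1 / κ + ‖y - x‖) (fun z hz => ?_) (fun z _ hW hg => ?_) y
    (le_add_of_nonneg_left (by positivity))
  · have h2 : R + ‖y - x‖ ^ 2 ≤ R * (1 + ‖y - x‖) ^ 2 := by nlinarith [norm_nonneg (y - x)]
    have h3 := pow_le_pow_left₀ (by positivity) h2 2
    have h4 := mul_le_mul_of_nonneg_left h3 (show 0 ≤ A * κ ^ 2 by positivity)
    linarith
  · have h2 : 0 < 1 / κ := by positivity
    have h3 : 1 / κ ≤ R + ‖z - x‖ ^ 2 := by rw [hz]; nlinarith [norm_nonneg (y - x)]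
    rw [div_le_iff₀ hκ] at h3
    have h4 : 1 ≤ ((R + ‖z - x‖ ^ 2) * κ) ^ 2 := one_le_pow₀ h3
    have h5 := mul_le_mul (show 1 ≤ A by linarith) h4 zero_le_one A0
    linarith [Y1 z, tt_le_one v z]
  · obtain ⟨b1, -, -, b4⟩ := hb v κ x h hF hN z
    set r := ‖z - x‖ with hr
    have r0 : 0 ≤ r := norm_nonneg _
    have f0 : 0 < R + r ^ 2 := by positivity
    have g1 : (1 + r) ^ 2 ≤ 2 * (R + r ^ 2) := by nlinarith [sq_nonneg (r - 1)]
    have g2 : C * (κ * (1 + r) ^ 2) ≤ 2 * C * κ * (R + r ^ 2) := by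
      have := mul_le_mul_of_nonneg_left g1 (show 0 ≤ C * κ by positivity)
      linarith
    have g3 : (2 * C * κ * (R + r ^ 2)) ^ 2 ≤ (1 / 4) ^ 2 := by
      have := mul_le_mul_of_nonneg_right A2 (sq_nonneg (κ * (R + r ^ 2)))
      linarith [Y1 z, tt_le_one v z]
    have g4 := abs_le_of_sq_le_sq' g3 (by norm_num)
    have g5 : 1 / 4 ≤ ‖∇ (dd v) z‖ := by
      linarith [norm_sub_norm_le (∇ (dd v) x) (∇ (dd v) z), norm_sub_rev (∇ (dd v) x) (∇ (dd v) z),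
        g4.2]
    have k1 := h.lap_Y h0 h1 (y := z) (by rw [tt]; nlinarith)
    have dE := cE.differentiable (by simp) z
    have dY := cY.differentiable (by simp) z
    have df := cf.differentiable (by simp) z
    have k2 : gin (dd v) (fun z => pb (δ - 1) v z * tt v z) z
        = A * κ ^ 2 * (2 * (R + r ^ 2) * gin (dd v) (fun z : EE n => R + ‖z - x‖ ^ 2) z) := by
      simp only [gin, Finset.mul_sum]
      refine Finset.sum_congr rfl fun i _ => ?_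
      have := hg i
      rw [pdv_sub dE dY, pdv_const_mul (df.fun_pow 2), pdv_sq df, sub_eq_zero] at this
      rw [← this]
      ring
    have k3 : gsq (fun z : EE n => R + ‖z - x‖ ^ 2) z = 4 * r ^ 2 := by
      rw [← gsq_normSq]
      simp only [gsq, add_comm R, pdv_add_const]
    have k4 : |gin (dd v) (fun z : EE n => R + ‖z - x‖ ^ 2) z| ≤ 2 * r := by
      refine abs_le_of_sq_le_sq' ?_ (by positivity) |> abs_le.2
      refine (gin_sq_le _ _ _).trans ?_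
      rw [k3]
      nlinarith [h.gsq_dd_le z, sq_nonneg r]
    have k6 : 2 * √2 * (δ - 1) * v z * gin (dd v) (fun z : EE n => R + ‖z - x‖ ^ 2) z ≤ 6 * r := by
      refine (le_abs_self _).trans ?_
      rw [abs_mul]
      linarith [mul_le_mul (h.abs_drift h0 (by linarith) z) k4 (abs_nonneg _) (by norm_num)]
    rw [lap_sub' cE.contDiffAt cY.contDiffAt, lap_const_mul (cf.pow 2).contDiffAt,
      lap_sq cf.contDiffAt, k3, lap_add' contDiffAt_const (contDiff_sq x).contDiffAt, lap_const,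
      lap_normSq]
    rw [k2] at k1
    exact tsq_alg (c := C ^ 2 * (κ * (R + r ^ 2)) ^ 2) (by positivity) (by linarith) h0
      (by positivity) k1 k6 (R2 r) (sub_neg.1 hW)
      ((b4.trans (pow_le_pow_left₀ (by positivity) g2 2)).trans_eq (by ring))
      (by linear_combination (κ * (R + r ^ 2)) ^ 2 * A1)

/-- `t ψ^δ ≤ C κ² (1 + |y - x|)⁴` -/
theorem flat_tsq (n : ℕ) {δ : ℝ} (h0 : 0 < δ) : ∃ C : ℝ, 1 ≤ C ∧
    ∀ (v : EE n → ℝ) (κ : ℝ) (x : EE n), Sol v → Flat v κ x → 1 / 2 ≤ ‖∇ (dd v) x‖ → ∀ y,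
      tt v y * psi v y ^ δ ≤ C * (κ * (1 + ‖y - x‖) ^ 2) ^ 2 := by
  obtain ⟨C, hC, h1⟩ := flat_tsq0 n (δ := min δ (1 / 16)) (lt_min h0 (by norm_num)) (min_le_right _ _)
  refine ⟨C, hC, fun v κ x h hF hN y => le_trans ?_ (h1 v κ x h hF hN y)⟩
  rw [mul_comm, pb, add_sub_cancel]
  exact mul_le_mul_of_nonneg_right (Real.rpow_le_rpow_of_exponent_ge (h.psi_pos y) (psi_le_one v y)
    (min_le_left _ _)) (h.tt_nonneg y)

end

end Crest.Agent.N067
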