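import Crest.Agent.N067.M.FDefs

/-! # Row 67, FLUX, case F: every thin contact is a cap contact (helper46) -/

set_option autoImplicit false
set_option linter.unusedVariables false

open InnerProductSpace Set Metric Topology Filter
open scoped RealInnerProductSpace Gradient

namespace Crest.Agent.N067.M

open Crest.Agent.R077 Crest.Agent.N067.V Crest.Agent.N067.M.Wd

variable {n : ℕ} {β : Bo} {v : EE n → ℝ}

theorem exists_log_sq (c : ℝ) : ∃ M : ℝ, 1 ≤ M ∧ ∀ ρ, M ≤ ρ →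
    1 ≤ Real.log ρ ∧ c * Real.log ρ ^ 2 ≤ ρ := by
  have h0 : 0 < |c| + 1 := by positivity
  have h1 := (Real.isLittleO_pow_log_id_atTop (n := 2)).bound (inv_pos.2 h0)
  obtain ⟨M, hM⟩ := eventually_atTop.1 (h1.and (Real.tendsto_log_atTop.eventually_ge_atTop 1))
  refine ⟨max M 1, le_max_right _ _, fun ρ hρ => ?_⟩
  obtain ⟨a1, a2⟩ := hM ρ ((le_max_left _ _).trans hρ)
  have a3 : 1 ≤ ρ := (le_max_right _ _).trans hρ
  rw [Real.norm_of_nonneg (sq_nonneg _), id, Real.norm_of_nonneg (by linarith),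
    ← div_eq_inv_mul, le_div_iff₀ h0] at a1
  have := mul_le_mul_of_nonneg_right (le_abs_self c) (sq_nonneg (Real.log ρ))
  exact ⟨a2, by nlinarith [sq_nonneg (Real.log ρ)]⟩

/-- normal and base point on a sheet -/
theorem Sheet.nu_bs (hv : Sol v) {q e y : EE n} {R a b δ : ℝ} (h : Sheet v q e R a b δ)
    (hδ : δ ≤ 1 / 2) (h1 : ‖y - q‖ ≤ R) (h2 : -a ≤ ⟪e, y - q⟫) (h3 : ⟪e, y - q⟫ ≤ b) :
    1 / 2 ≤ NN v y ∧ ‖nu v y - e‖ ≤ 2 * δ ∧ |⟪e, bs v y - q⟫| ≤ δ + 2 * δ * |dd v y| := by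
  obtain ⟨k1, k2, k3⟩ := h.est y h1 h2 h3
  have hN : 1 / 2 ≤ NN v y := by linarith [one_sub_NN hv y]
  have k4 := norm_nn_sub_nu hv (y := y) (by linarith)
  have k5 : ‖nu v y - e‖ ≤ 2 * δ := by
    have := norm_sub_le_norm_sub_add_norm_sub (nu v y) (nn v y) e
    rw [norm_sub_rev (nu v y) (nn v y)] at this
    linarith
  refine ⟨hN, k5, ?_⟩
  have e1 : ⟪e, bs v y - q⟫ = -(dd v y - ⟪e, y - q⟫) - dd v y * ⟪nu v y - e, e⟫ := by
    rw [bs, show y - dd v y • nu v y - q = (y - q) - dd v y • nu v y by abel, inner_sub_right,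
      real_inner_smul_right, inner_sub_left, real_inner_self_eq_norm_sq, h.unit,
      real_inner_comm e (nu v y)]
    ring
  have k6 := mul_le_mul_of_nonneg_left (abs_inner_le k5 h.unit) (abs_nonneg (dd v y))
  rw [e1]
  refine (abs_sub _ _).trans ?_
  rw [abs_neg, abs_mul]
  linarith

variable {ρm ε C : ℝ} {x g w om z : EE n}

/-- a contact point lies under the paraboloid of the ball -/
theorem ct_ball (hc : Ct β v ρm ε C x g w om z) (hN : 0 < NN v x)
    (hr : |dd v x| < rt β v ρm x) : dd v z ≤ dd v x + ⟪nn v x, z - x⟫ -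
      NN v x * ‖z - x‖ ^ 2 / (2 * (rt β v ρm x - dd v x)) := by
  have e0 := hc.eq
  generalize rt β v ρm x = r at *
  have hL : 0 < r - dd v x := by linarith [le_abs_self (dd v x)]
  have h0 : 0 ≤ r := (abs_nonneg _).trans hr.le
  have h1 : ‖z - x - (r - dd v x) • nu v x‖ ≤ ‖z - cen v x r w‖ + β.η * r := by
    rw [show z - x - (r - dd v x) • nu v x = (z - cen v x r w) + r • w by rw [cen]; abel]
    refine (norm_add_le _ _).trans ?_
    rw [norm_smul, Real.norm_of_nonneg h0]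
    linarith [mul_le_mul_of_nonneg_left hc.mem.1 h0]
  have h2 := gp_anti hN.le hL (norm_nonneg _) h1
  have h3 : gp (NN v x) (r - dd v x) ‖z - x - (r - dd v x) • nu v x‖ =
      ⟪nn v x, z - x⟫ - NN v x * ‖z - x‖ ^ 2 / (2 * (r - dd v x)) := by
    rw [gp, norm_sub_sq_real, norm_smul, norm_nu hN, real_inner_smul_right, nn_eq hN,
      real_inner_smul_left, real_inner_comm, mul_one, Real.norm_eq_abs, sq_abs]
    field_simp
    ring
  rw [e0, PP]
  linarith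

/-- no contact inside a convex region where the Hessian is small -/
theorem ct_not_flat (hv : Sol v) (hc : Ct β v ρm ε C x g w om z) (hN : 1 / 2 ≤ NN v x)
    (h8 : 8 * |dd v x| + 8 ≤ rt β v ρm x) {κ : ℝ}
    (hB : ∀ y ∈ segment ℝ x z, ‖hb (dd v) y‖ ≤ κ) : 1 ≤ 8 * κ * rt β v ρm x := by
  have h0 := abs_nonneg (dd v x)
  have h1 := ct_ball hc (by linarith) (by linarith)
  have h2 := (abs_le.1 (seg_taylor hv hB (right_mem_segment ℝ x z)).2).1
  have h3 : 0 < ‖z - x‖ ^ 2 := pow_pos (norm_pos_iff.2 (sub_ne_zero.2 hc.ne)) 2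
  have κ0 : 0 ≤ κ := (ContinuousLinearMap.opNorm_nonneg _).trans (hB x (left_mem_segment ℝ x z))
  generalize rt β v ρm x = r at *
  have a1 := abs_le.1 (le_refl |dd v x|)
  have h4 : NN v x * ‖z - x‖ ^ 2 / (2 * (r - dd v x)) ≤ κ * ‖z - x‖ ^ 2 := by linarith
  rw [div_le_iff₀ (by linarith), mul_right_comm] at h4
  have h5 := le_of_mul_le_mul_right h4 h3
  have h6 := mul_le_mul_of_nonneg_left (show r - dd v x ≤ 2 * r by linarith) κ0
  linarith

/-- the top point is above the base point -/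
theorem top_height {b ν : EE n} {r : ℝ} (hν : ‖ν‖ = 1) (hom : ‖om‖ = 1) (hw : w ∈ Core β ν)
    (hr : 0 ≤ r) : 0 ≤ ⟪top β b ν w om r - b, ν⟫ := by
  have h1 := (abs_le.1 (abs_inner_le hw.1 hν)).1
  have h2 := (abs_le.1 (abs_inner_le hom.le hν)).1
  have e : ⟪top β b ν w om r - b, ν⟫ = r + r * ⟪w, ν⟫ + (1 - β.η) * r * ⟪om, ν⟫ := by
    rw [top]
    simp only [inner_sub_left, inner_add_left, real_inner_smul_left, real_inner_self_eq_norm_sq,
      hν]
    ring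
  have h3 := mul_le_mul_of_nonneg_left h1 hr
  have h4 := mul_le_mul_of_nonneg_left h2 (mul_nonneg (by linarith [β.η1] : 0 ≤ 1 - β.η) hr)
  linarith

/-- case F gives parallel planes around any zero near `x` -/
theorem par_FF (n : ℕ) : ∃ M : ℝ, 1 ≤ M ∧ ∀ (v : EE n → ℝ) (x x0 : EE n), Sol v → FF v x →
    0 < ph0 v x → M ≤ 1 / ph0 v x → v x0 = 0 → ‖x0 - x‖ ≤ 1 / ph0 v x →
    Pn.Par v 2 (1 / 8) ((1 / ph0 v x) ^ 2) x0 (nu v x0) := by
  obtain ⟨K, hK, h⟩ := Pn.par_of_small n (S := 2) le_rfl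
  refine ⟨500 * K, by linarith, fun v x x0 hv hF hp hM h0 hx => ?_⟩
  obtain ⟨ρ, hρ⟩ : ∃ ρ, ρ = 1 / ph0 v x := ⟨_, rfl⟩
  have e1 : ph0 v x = 1 / ρ := by rw [hρ, one_div_one_div]
  unfold FF at hF
  rw [← hρ] at hM hx hF ⊢
  have r1 : 1 ≤ ρ := by linarith
  have m : ∀ i j : ℕ, i ≤ j → ρ ^ i ≤ ρ ^ j := fun i j => pow_le_pow_right₀ r1
  have m1 : ∀ i j : ℕ, i + 1 ≤ j → 500 * K * ρ ^ i ≤ ρ ^ j := fun i j hij =>
    le_trans (by rw [pow_succ']; exact mul_le_mul_of_nonneg_right hM (by positivity)) (m _ _ hij)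
  have m2 : ∀ i : ℕ, ρ ^ i ≤ K * ρ ^ i := fun i => le_mul_of_one_le_left (by positivity) hK
  refine (h v hv x0 (ρ ^ 2) (ρ ^ 5) (ph0 v x ^ 100) (1 / 8) (one_le_pow₀ r1) ?_ h0
    (fun z hz hz0 => hF z ?_ ?_) ?_ le_rfl).1
  · linarith [m1 2 5 (by norm_num), m2 2, sq_nonneg ρ]
  · have := norm_sub_le_norm_sub_add_norm_sub z x0 x
    have a1 := m 1 5 (by norm_num)
    rw [pow_one] at a1
    linarith [mem_closedBall_iff_norm.1 hz, m1 5 11 (by norm_num), m2 5, m 2 5 (by norm_num)]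
  · rw [(Pn.dd_zero_iff hv).2 hz0]; norm_num
  · have a1 : √(ph0 v x ^ 100) = 1 / ρ ^ 50 := by
      rw [show ph0 v x ^ 100 = (ph0 v x ^ 50) ^ 2 by ring, Real.sqrt_sq (by positivity), e1,
        one_div_pow]
    have a2 : (1 + ρ ^ 5) ^ 2 ≤ (2 * ρ ^ 5) ^ 2 :=
      pow_le_pow_left₀ (by positivity) (by linarith [one_le_pow₀ (n := 5) r1]) 2
    have a3 : 7 * ρ ^ 2 * (K * (1 / ρ ^ 50) * (1 + ρ ^ 5) ^ 2) ≤ 28 * K * ρ ^ 12 / ρ ^ 50 := by
      calc _ ≤ 7 * ρ ^ 2 * (K * (1 / ρ ^ 50) * (2 * ρ ^ 5) ^ 2) := by gcongr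
        _ = _ := by ring
    have a4 : 28 * K * ρ ^ 12 / ρ ^ 50 ≤ 1 / 16 := by
      rw [div_le_iff₀ (by positivity)]
      linarith [m1 12 50 (by norm_num), m2 12, pow_nonneg (show 0 ≤ ρ by linarith) 12]
    have a5 : 9 * (ρ ^ 2) ^ 2 / ρ ^ 5 ≤ 1 / 16 := by
      rw [div_le_iff₀ (by positivity)]
      linarith [m1 4 5 (by norm_num), m2 4, pow_nonneg (show 0 ≤ ρ by linarith) 4]
    rw [a1]
    linarith

/-- elementary facts at an active point over the bottom sheet -/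
structure Num (β : Bo) (v : EE n → ℝ) (ρm C2 K c : ℝ) (x x0 : EE n) : Prop where
  pos : 0 < ph0 v x
  l1 : 1 ≤ lg v x
  big : c * lg v x ^ 2 ≤ 1 / ph0 v x
  dl : |dd v x| ≤ |C2| * lg v x
  lo : 1 / ph0 v x ≤ 2 * rt β v ρm x
  hi : rt β v ρm x ≤ |K| * (1 / ph0 v x)
  N : 1 / 2 ≤ NN v x
  t : tt v x ≤ ph0 v x ^ 5
  tilt : ‖nu v x - nu v x0‖ ≤ 2 * ph0 v x ^ 5
  base : ‖bs v x - x0‖ ≤ 2 * ph0 v x
  ht : |⟪nu v x0, x - x0⟫| ≤ |dd v x| + 1
  dist : ‖x - x0‖ ≤ |dd v x| + 1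

theorem exists_num (n : ℕ) (C2 c : ℝ) : ∃ M : ℝ, 1 ≤ M ∧ ∀ (β : Bo) (v : EE n → ℝ) (ρm K C3 : ℝ)
    (x x0 : EE n), |C2| + 1 ≤ C3 → Geo β v ρm M C2 K x → Bot v C3 x x0 →
      Num β v ρm C2 K c x x0 := by
  have c0 := abs_nonneg C2
  obtain ⟨M, hM, h⟩ := exists_log_sq (max c (2 * |C2| + 2))
  refine ⟨M, hM, fun β v ρm K C3 x x0 h3 G B => ?_⟩
  have hv : Sol v := G.ps.toPos.toSol
  have hp : 0 < ph0 v x := ph0_pos G.ps.toPos G.ps.stab x
  obtain ⟨v1, v2, -⟩ := G.val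
  have hρ : M ≤ 1 / ph0 v x := (le_one_div (by linarith) hp).2 v1.le
  obtain ⟨l1, l2⟩ := h _ hρ
  have p1 : ph0 v x * (1 / ph0 v x) = 1 := mul_one_div_cancel hp.ne'
  change 1 ≤ lg v x at l1
  change _ * lg v x ^ 2 ≤ _ at l2
  change _ < C2 * lg v x at v2
  have l3 : lg v x ≤ lg v x ^ 2 := le_self_pow₀ l1 two_ne_zero
  have l4 := mul_le_mul_of_nonneg_right (le_max_right c (2 * |C2| + 2)) (sq_nonneg (lg v x))
  have l5 := mul_le_mul_of_nonneg_left l3 c0
  have dl : |dd v x| ≤ |C2| * lg v x :=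
    v2.le.trans (mul_le_mul_of_nonneg_right (le_abs_self _) (by linarith))
  have d0 := abs_nonneg (dd v x)
  have r2 : 2 * |dd v x| + 2 ≤ 1 / ph0 v x := by linarith
  have p2 : ph0 v x * (2 * |dd v x| + 2) ≤ 1 := p1 ▸ mul_le_mul_of_nonneg_left r2 hp.le
  have p3 : ph0 v x ≤ 1 / 2 := by linarith [mul_nonneg hp.le d0]
  have p4 : ph0 v x ^ 5 ≤ ph0 v x ^ 2 := pow_le_pow_of_le_one hp.le (by linarith) (by norm_num)
  have p5 : ph0 v x ^ 2 ≤ ph0 v x := pow_le_of_le_one hp.le (by linarith) two_ne_zero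
  have he := B.sh.unit
  have e1 : x - x0 = (x - (x0 + dd v x • nu v x0)) + dd v x • nu v x0 := by abel
  have dist : ‖x - x0‖ ≤ |dd v x| + 1 := by
    have := norm_add_le (x - (x0 + dd v x • nu v x0)) (dd v x • nu v x0)
    rw [← e1, norm_smul, he, mul_one, Real.norm_eq_abs] at this
    linarith [B.near]
  have ht : |⟪nu v x0, x - x0⟫| ≤ |dd v x| + 1 := by
    rw [real_inner_comm]; exact abs_inner_le dist he
  have a1 : ‖x - x0‖ ≤ (1 / ph0 v x) ^ 2 :=
    le_trans (by linarith) (le_self_pow₀ (by linarith : 1 ≤ 1 / ph0 v x) two_ne_zero)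
  have a2 := mul_le_mul_of_nonneg_right h3 (show 0 ≤ lg v x by linarith)
  have a3 := abs_le.1 ht
  obtain ⟨k1, k2, -⟩ := B.sh.nu_bs hv (by linarith) a1 (by linarith) (by linarith)
  obtain ⟨-, -, k3⟩ := B.sh.est x a1 (by linarith) (by linarith)
  refine ⟨hp, l1, le_trans (mul_le_mul_of_nonneg_right (le_max_left _ _) (sq_nonneg _)) l2, dl,
    ?_, ?_, k1, k3, k2, ?_, ht, dist⟩
  · have := G.lo
    rw [show 1 / (2 * ph0 v x) = 1 / ph0 v x / 2 by ring] at this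
    linarith
  · rw [mul_one_div, le_div_iff₀ hp]; exact G.hi.trans (le_abs_self K)
  · have a4 := norm_add_le (x - (x0 + dd v x • nu v x0)) (dd v x • (nu v x0 - nu v x))
    rw [show x - (x0 + dd v x • nu v x0) + dd v x • (nu v x0 - nu v x) = bs v x - x0 by
      rw [bs, smul_sub]; abel, norm_smul, norm_sub_rev (nu v x0), Real.norm_eq_abs] at a4
    have a5 := mul_le_mul_of_nonneg_left (k2.trans (by linarith : _ ≤ 2 * ph0 v x ^ 2)) d0
    have a6 := mul_le_mul_of_nonneg_left p2 hp.le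
    linarith [B.near, sq_nonneg (ph0 v x)]

/-- **CAP**, with the zero near the contact point -/
theorem cap_height (n : ℕ) (C C2 : ℝ) : ∃ γ : ℝ, 1 ≤ γ ∧ |C2| + 1 ≤ γ ∧ ∀ K C3 : ℝ, 3 * γ ≤ C3 →
    ∃ M : ℝ, 1 ≤ M ∧ ∀ (β : Bo) (v : EE n → ℝ) (ρm ε : ℝ) (x x0 g w om z : EE n),
      Geo β v ρm M C2 K x → Bot v C3 x x0 → Ct β v ρm ε C x g w om z →
      (∃ z0, v z0 = 0 ∧ ‖z0 - z‖ ≤ γ * lg v x ∧ ‖z0 - x0‖ ≤ (1 / ph0 v x) ^ 2 ∧
        (2 - β.h) * rt β v ρm x - 3 ≤ ⟪nu v x0, z0 - x0⟫) ∧ |dd v z| ≤ γ * lg v x ∧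
      (rt β v ρm x - dd v x) * |1 - (NN v z / NN v x) ^ 2| ≤ γ * lg v x ∧
      |rt β v ρm x - NN v z / NN v x * (rt β v ρm x - dd v x)| ≤ γ * lg v x ∧
      ‖om - nu v x‖ ^ 2 * rt β v ρm x ≤ 9 * γ * lg v x := by
  obtain ⟨A0, hA0, hz⟩ := Pn.near_zero n
  obtain ⟨Cb, hCb, hhb⟩ := exists_hb n
  obtain ⟨Mp, hMp, hpar⟩ := par_FF n
  have c0 := abs_nonneg C2
  have c1 := abs_nonneg C
  obtain ⟨γ, hγ⟩ : ∃ γ, γ = 6 * |C2| + 10 * |C| + A0 + 20 := ⟨_, rfl⟩
  refine ⟨γ, by linarith, by linarith, fun K C3 h3 => ?_⟩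
  have k0 := abs_nonneg K
  have k1 := mul_nonneg hCb k0
  obtain ⟨M, hM, hN⟩ := exists_num n C2
    (8 * (Cb * |K|) + 4 * |K| + Mp + 5 * (1 + |C2|) ^ 2 + 4 * γ)
  refine ⟨M, hM, fun β v ρm ε x x0 g w om z G B ct => ?_⟩
  have N := hN β v ρm K C3 x x0 (by linarith) G B
  have hv : Sol v := G.ps.toPos.toSol
  have hC : 0 ≤ C := by
    by_contra h
    have := mul_neg_of_neg_of_pos (not_le.1 h)
      (add_pos_of_nonneg_of_pos (norm_nonneg g) (G.ps.tpos x))
    linarith [ct.tilt, norm_nonneg ((NN v z / NN v x) • om - nu v x)]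
  obtain ⟨hp, l1, big, dl, lo, hi, hN, ht, tilt, base, hx, dist⟩ := N
  have h8 := G.dep
  have N0 : 0 < NN v x := by linarith
  have hν := norm_nu N0
  have he := B.sh.unit
  have p1 : ph0 v x * (1 / ph0 v x) = 1 := mul_one_div_cancel hp.ne'
  have par := hpar v x x0 hv G.ff hp
  have sh := B.sh
  have e1 := ct_dd ct N0 h8
  have e2 := ct_top ct
  have gap := fun A => ct_gap (A := A) hv ct hN h8 hC
  have nfl := fun κ => ct_not_flat (κ := κ) hv ct hN h8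
  have dp := fun q τ A m => deep (p := q) (τ := τ) (A := A) (m := m) hv N0 G.fit
  have σ0 : 3 / 4 ≤ NN v z / NN v x := by rw [le_div_iff₀ N0]; exact ct.sig
  generalize NN v z / NN v x = σ at *
  generalize rt β v ρm x = r at *
  generalize lg v x = l at *
  generalize 1 / ph0 v x = ρ at *
  generalize ph0 v x = p at *
  have d0 := abs_nonneg (dd v x)
  have d1 := abs_le.1 (le_refl |dd v x|)
  have l2 : l ≤ l ^ 2 := le_self_pow₀ l1 two_ne_zero
  have γ1 : 20 ≤ γ := by linarith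
  have q0 := sq_nonneg (1 + |C2|)
  have b1 := le_mul_of_one_le_right k1 (l1.trans l2)
  have b2 := le_mul_of_one_le_right k0 (l1.trans l2)
  have b3 := le_mul_of_one_le_right (show 0 ≤ Mp by linarith) (l1.trans l2)
  have b4 := mul_le_mul_of_nonneg_left l2 (show 0 ≤ γ by linarith)
  have b5 := mul_nonneg q0 (sq_nonneg l)
  have b6 := mul_le_mul_of_nonneg_right γ1 (show 0 ≤ l by linarith)
  have b7 := le_mul_of_one_le_right c1 l1
  have b8 := le_mul_of_one_le_right (show 0 ≤ A0 by linarith) l1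
  have b9 : γ * l = 6 * (|C2| * l) + 10 * (|C| * l) + A0 * l + 20 * l := by rw [hγ]; ring
  have s1 : 8 * (Cb * |K|) + 4 * |K| + Mp + 4 * (γ * l) ≤ ρ := by linarith
  have s2 : 5 * ((1 + |C2|) * l) ^ 2 ≤ ρ := by linarith
  have ρ1 : 80 ≤ ρ := by linarith
  have r1 : 40 ≤ r := by linarith
  have sc : ∀ a, a ≤ ρ → p * a ≤ 1 := fun a h => p1 ▸ mul_le_mul_of_nonneg_left h hp.le
  have p2 : p ≤ 1 / 80 := by linarith [sc 80 ρ1]
  have pw : ∀ i j : ℕ, i ≤ j → p ^ j ≤ p ^ i := fun i j => pow_le_pow_of_le_one hp.le (by linarith)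
  have p3 : p * r ≤ |K| := by
    have := mul_le_mul_of_nonneg_left hi hp.le
    rwa [mul_left_comm, p1, mul_one] at this
  have p4 : p ^ 2 * r ≤ 1 / 4 := by
    have := mul_le_mul_of_nonneg_left p3 hp.le
    linarith [sc (4 * |K|) (by linarith)]
  have p5 : p ^ 5 * r ≤ 1 / 4 :=
    (mul_le_mul_of_nonneg_right (pw 2 5 (by norm_num)) (by linarith)).trans p4
  have g1 := gap 1 (by linarith [mul_le_mul_of_nonneg_left ht (show 0 ≤ r by linarith)])
  have Cle := le_abs_self C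
  have L0 : 0 ≤ r - dd v x := by linarith
  have g2 : |dd v z - dd v x| ≤ (r - dd v x) * |1 - σ ^ 2| / 2 := by
    rw [e1, add_sub_cancel_left, abs_div, abs_two, abs_mul, abs_mul, abs_of_pos N0,
      abs_of_nonneg L0, mul_assoc]
    linarith [mul_le_of_le_one_left (mul_nonneg L0 (abs_nonneg (1 - σ ^ 2))) (NN_le hv x)]
  have g3 : |dd v z| ≤ |dd v x| + (r - dd v x) * |1 - σ ^ 2| / 2 := by
    linarith [abs_sub_abs_le_abs_sub (dd v z) (dd v x)]
  have g4 : |r - σ * (r - dd v x)| ≤ γ * l := by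
    have a1 : |1 - σ| ≤ |1 - σ ^ 2| := by
      rw [show 1 - σ ^ 2 = (1 - σ) * (1 + σ) by ring, abs_mul]
      exact le_mul_of_one_le_right (abs_nonneg _) (le_trans (by linarith) (le_abs_self _))
    have a2 := abs_add_le (dd v x) ((r - dd v x) * (1 - σ))
    rw [abs_mul, abs_of_nonneg L0, show dd v x + (r - dd v x) * (1 - σ) =
      r - σ * (r - dd v x) by ring] at a2
    linarith [mul_le_mul_of_nonneg_left a1 L0]
  obtain ⟨z0, z1, z2⟩ := hz v hv z
  have z3 : ‖z0 - z‖ ≤ γ * l := by linarith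
  have t1 := norm_top (b := bs v x) hν ct.unit ct.mem (show 0 ≤ r by linarith)
  have t2 := top_height (b := bs v x) hν ct.unit ct.mem (show 0 ≤ r by linarith)
  have t3 := fun l' => cap_of_height (b := bs v x) (l := l') hν ct.unit ct.mem
    (show 0 < r by linarith)
  generalize top β (bs v x) (nu v x) w om r = tp at *
  have e3 : z - x0 = (tp - bs v x) + (bs v x - x0) - (r - σ * (r - dd v x)) • om := by
    rw [e2]; abel
  have n1 : ‖(r - σ * (r - dd v x)) • om‖ ≤ γ * l := by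
    rwa [norm_smul, ct.unit, mul_one, Real.norm_eq_abs]
  have n2 : ‖z - x0‖ ≤ 2 * r + 1 + γ * l := by
    rw [e3]
    linarith [norm_sub_le (tp - bs v x + (bs v x - x0)) ((r - σ * (r - dd v x)) • om),
      norm_add_le (tp - bs v x) (bs v x - x0)]
  have n3 : 2 * r + 1 + 2 * (γ * l) ≤ ρ ^ 2 := by
    have a1 := mul_le_mul_of_nonneg_right (show 4 * |K| ≤ ρ by linarith) (show 0 ≤ ρ by linarith)
    have a2 := mul_le_mul_of_nonneg_right ρ1 (show 0 ≤ ρ by linarith)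
    linarith
  have n4 : ‖z0 - x0‖ ≤ ρ ^ 2 := by linarith [norm_sub_le_norm_sub_add_norm_sub z0 z x0]
  have hH : |⟪z - x0, nu v x0⟫ - ⟪tp - bs v x, nu v x⟫| ≤ γ * l + 2 := by
    have a1 := abs_le.1 (abs_inner_le n1 he)
    have a2 := abs_le.1 (abs_inner_le base he)
    have a3 := abs_le.1 ((abs_real_inner_le_norm (tp - bs v x) (nu v x - nu v x0)).trans
      (mul_le_mul t1 tilt (norm_nonneg _) (by linarith)))
    rw [inner_sub_right] at a3
    rw [e3, inner_sub_left (tp - bs v x + (bs v x - x0)), inner_add_left]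
    exact abs_le.2 ⟨by linarith, by linarith⟩
  have h3' := mul_le_mul_of_nonneg_right h3 (show 0 ≤ l by linarith)
  have hx' := abs_le.1 hx
  have hH' := abs_le.1 hH
  have hup : C3 * l < ⟪z - x0, nu v x0⟫ := by
    refine not_le.1 fun h => ?_
    have hcv : Convex ℝ (closedBall x0 (ρ ^ 2) ∩ {y | -(C3 * l) + ⟪nu v x0, x0⟫ ≤ ⟪nu v x0, y⟫} ∩
        {y | ⟪nu v x0, y⟫ ≤ C3 * l + ⟪nu v x0, x0⟫}) :=
      ((convex_closedBall _ _).inter
        (convex_halfSpace_ge (innerSL ℝ (nu v x0)).toLinearMap.isLinear _)).inter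
        (convex_halfSpace_le (innerSL ℝ (nu v x0)).toLinearMap.isLinear _)
    rw [real_inner_comm, inner_sub_right] at h hH'
    rw [inner_sub_right] at hx'
    have a1 := nfl (Cb * p ^ 2) fun y hy => by
      obtain ⟨⟨y1, y2⟩, y3⟩ := hcv.segment_subset
        ⟨⟨mem_closedBall_iff_norm.2 (by linarith), by simp only [mem_ofPred_eq]; linarith⟩,
          by simp only [mem_ofPred_eq]; linarith⟩
        ⟨⟨mem_closedBall_iff_norm.2 (by linarith), by simp only [mem_ofPred_eq]; linarith⟩,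
          by simp only [mem_ofPred_eq]; linarith⟩ hy
      simp only [mem_ofPred_eq] at y2 y3
      have y4 := (sh.est y (mem_closedBall_iff_norm.1 y1) (by rw [inner_sub_right]; linarith)
        (by rw [inner_sub_right]; linarith)).2.2
      refine (hhb v hv y).trans (mul_le_mul_of_nonneg_left (Real.sqrt_le_iff.2
        ⟨by positivity, ?_⟩) hCb)
      linarith [pw 4 5 (by norm_num)]
    have a2 := mul_le_mul_of_nonneg_left p3 (mul_nonneg hCb hp.le)
    have a3 := sc (8 * (Cb * |K|) + 80) (by linarith)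
    linarith
  have z4 := abs_le.1 (abs_inner_le z3 he)
  have e4 : ⟪nu v x0, z0 - x0⟫ = ⟪z0 - z, nu v x0⟫ + ⟪z - x0, nu v x0⟫ := by
    rw [← inner_add_left, sub_add_sub_cancel, real_inner_comm]
  have P := par (by linarith) ((Pn.dd_zero_iff hv).1 B.zero) (by rw [norm_sub_rev]; linarith)
  have z5 : |⟪nu v x0, z0 - x0⟫| ≤ ρ ^ 2 := (P.abs_le _).trans n4
  obtain ⟨s, hs, hq⟩ := P.par z0 (mem_closedBall_iff_norm.2 n4) z1
  have hq1 := (hq (x0 + ⟪nu v x0, z0 - x0⟫ • nu v x0) (P.axis_mem (by linarith [sq_nonneg ρ]))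
    (by rw [P.axis, sub_self, abs_zero]; norm_num)).1
  rw [P.axis, sub_self, mul_zero, sub_zero] at hq1
  have hz0 : (2 - β.h) * r - 3 ≤ ⟪nu v x0, z0 - x0⟫ := by
    refine not_lt.1 fun h => ?_
    generalize ⟪nu v x0, z0 - x0⟫ = H at *
    have a1 : ‖x0 + H • nu v x0 - (bs v x + H • nu v x)‖ ≤ 2 := by
      have a2 := norm_add_le (bs v x - x0) (H • (nu v x - nu v x0))
      rw [show bs v x - x0 + H • (nu v x - nu v x0) = bs v x + H • nu v x - (x0 + H • nu v x0) by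
        rw [smul_sub]; abel, norm_smul, Real.norm_eq_abs, norm_sub_rev] at a2
      have a3 := mul_le_mul z5 tilt (norm_nonneg _) (sq_nonneg ρ)
      have a4 : ρ ^ 2 * (2 * p ^ 5) = 2 * p ^ 3 * (p * ρ) ^ 2 := by ring
      have a5 := pw 1 3 (by norm_num)
      rw [p1] at a4
      linarith
    have a2 := dp _ H 2 1 (by linarith) a1 (by linarith) (by linarith)
      (by linarith [mul_le_mul_of_nonneg_right β.η1 (show 0 ≤ r by linarith)])
    have a3 : |1 - dd v x| ≤ (1 + |C2|) * l := abs_le.2 ⟨by linarith, by linarith⟩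
    have a4 : tt v x * |1 - dd v x| ≤ 1 / 4 := by
      have a5 := mul_le_mul (ht.trans (pw 1 5 (by norm_num))) a3 (abs_nonneg _) (by positivity)
      linarith [sc (4 * ((1 + |C2|) * l)) (by linarith)]
    have a5 : (1 - dd v x) ^ 2 / (2 * (r - dd v x)) ≤ 1 / 4 := by
      rw [div_le_iff₀ (by linarith), ← sq_abs]
      linarith [pow_le_pow_left₀ (abs_nonneg _) a3 2]
    linarith [(abs_le.1 hq1).2]
  refine ⟨⟨z0, z1, z3, n4, hz0⟩, by linarith, by linarith, g4, ?_⟩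
  linarith [t3 (2 * (γ * l) + 5) (by linarith)]

/-- **CAP** -/
theorem cap (n : ℕ) : CapStmt n := by
  intro β C K C2 e he
  obtain ⟨γ, h1, h2, h⟩ := cap_height n C C2
  refine ⟨3 * γ, fun C3 h3 => ?_⟩
  obtain ⟨M, hM, h⟩ := h K C3 h3
  obtain ⟨M', hM', h'⟩ := exists_num n C2 (18 * γ / e ^ 2)
  refine ⟨max M M', le_max_of_le_left hM, fun v ρm ε x x0 g w om z G B ct => ?_⟩
  have a1 := (h β v ρm ε x x0 g w om z
    { G with val := Val_mono (by linarith) (le_max_left _ _) G.val } B ct).2.2.2.2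
  have N := h' β v ρm K C3 x x0 (by linarith)
    { G with val := Val_mono (by linarith) (le_max_right _ _) G.val } B
  have a2 := N.big
  have a3 := mul_le_mul_of_nonneg_left (le_self_pow₀ N.l1 two_ne_zero) (show 0 ≤ γ by linarith)
  rw [div_mul_eq_mul_div, div_le_iff₀ (by positivity)] at a2
  have a4 := mul_le_mul_of_nonneg_right N.lo (sq_nonneg e)
  have r0 : 0 < rt β v ρm x := by linarith [G.dep, abs_nonneg (dd v x)]
  exact abs_le_of_sq_le_sq' (le_of_mul_le_mul_right (by linarith) r0) he.le |>.2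

end Crest.Agent.N067.M
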