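import Crest.Agent.N067.F.Cap
import Crest.Agent.N067.M.Col

/-! # Row 67, FLUX, case F: sharp comparison of `rt` on the column (helper46) -/

set_option autoImplicit false
set_option linter.unusedVariables false

open InnerProductSpace Set Metric Topology Filter
open scoped RealInnerProductSpace Gradient

namespace Crest.Agent.N067.M

open Crest.Agent.R077 Crest.Agent.N067.V Crest.Agent.N067.M.Wd

variable {n : ℕ} {β : Bo} {v : EE n → ℝ}

/-- the same competitor, explicit smallness -/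
theorem col_same (hv : Sol v) {ρm ε C r s θ τ B G : ℝ} {x g w om z y : EE n}
    (ct : Ct β v ρm ε C x g w om z) (hr : rt β v ρm x = r) (h8 : 8 * |dd v x| + 8 ≤ r)
    (N0 : 0 < NN v x) (N1 : 0 < NN v y) (hτ : ‖om - nu v x‖ ≤ τ) (hτ' : τ < √(β.η * β.h) / 10)
    (hθ : ‖nu v y - nu v x‖ ≤ θ) (hθ' : θ ≤ √(β.η * β.h) / 10) (s0 : 0 < s) (s1 : s ≤ 1)
    (hb : ‖bs v y - bs v x‖ ≤ B) (hb' : -(s / 8) ≤ ⟪bs v y - bs v x, om⟫) (h1 : 2 * r * θ ≤ s / 8)
    (h2 : 8 * (B + 7) ^ 2 ≤ s * r) (hG : |r - NN v z / NN v x * (r - dd v x)| ≤ G)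
    (hx : |dd v x| ≤ G) (hy : |dd v y| ≤ G) (hyr : 2 * G + 2 ≤ r) (tx : tt v x * G ≤ s / 16)
    (ty : tt v y * (2 * G + 2) ≤ s / 8) (h3 : 8 * (2 * G + 2) ^ 2 ≤ s * r) :
    rt β v ρm y ≤ r + s := by
  have η0 := β.η0
  have η1 := β.η1
  have b0 := β.h0
  have b1 := β.h1
  have d0 := abs_le.1 (le_refl |dd v x|)
  have r0 : 0 < r := by linarith [abs_nonneg (dd v x)]
  have hν := norm_nu N0
  have hν' := norm_nu N1
  have ho := ct.unit
  have hw := ct.cap (hτ.trans_lt hτ')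
  have hpos := ct.pos
  have e1 := ct_dd ct N0 (hr ▸ h8)
  rw [hr] at hpos e1
  have σ2 : 3 / 4 ≤ NN v z / NN v x := by rw [le_div_iff₀ N0]; exact ct.sig
  generalize NN v z / NN v x = σ at *
  obtain ⟨L, hL⟩ : ∃ L, L = r - dd v x := ⟨_, rfl⟩
  rw [← hL] at hpos e1 hG
  have L1 : 7 / 8 * r ≤ L := by linarith
  have l0 : r / 2 ≤ σ * L - β.η * r := by nlinarith only [L1, σ2, η1, r0]
  have g0 := abs_le.1 hG
  have x0 := abs_le.1 hx
  have y0 := abs_le.1 hy
  have e5 : dd v z ≤ r - σ * L + s / 8 := by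
    have a1 : dd v z = dd v x + (1 - σ) * L - (1 - NN v x) * ((1 - σ) * L) -
        NN v x * L * (1 - σ) ^ 2 / 2 := by rw [e1]; ring
    have a2 : -((1 - σ) * L) ≤ 2 * G := by linarith
    have a3 := mul_le_mul_of_nonneg_left a2 (sub_nonneg.2 (NN_le hv x))
    have a4 := mul_le_mul_of_nonneg_right (one_sub_NN hv x) (show 0 ≤ 2 * G by linarith)
    have a5 : 0 ≤ NN v x * L * (1 - σ) ^ 2 := mul_nonneg (mul_nonneg N0.le (by linarith))
      (sq_nonneg _)
    linarith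
  have hk : ‖om - nu v y‖ ≤ √(β.η * β.h) / 5 := by
    have := norm_sub_le_norm_sub_add_norm_sub om (nu v x) (nu v y)
    rw [norm_sub_rev (nu v x)] at this
    linarith
  obtain ⟨E, hE⟩ : ∃ E, E = -(bs v y - bs v x) -
      s • ((3 + β.η - β.h) • om - (2 : ℝ) • nu v y) + (2 * r) • (nu v y - nu v x) := ⟨_, rfl⟩
  have e7 : z - cen v y (r + s) ((3 + β.η - β.h) • om - (3 : ℝ) • nu v y) =
      (σ * L - β.η * r) • om + E := by
    rw [hE, hpos, cen_eq, cen_eq, hw]; module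
  have n1 : ‖(2 * r) • (nu v y - nu v x)‖ ≤ s / 8 := by
    rw [norm_smul, Real.norm_of_nonneg (by linarith)]
    exact (mul_le_mul_of_nonneg_left hθ (by linarith)).trans h1
  have e8 : ‖E‖ ≤ B + 7 := by
    have a1 : ‖(3 + β.η - β.h) • om - (2 : ℝ) • nu v y‖ ≤ 6 := by
      refine (norm_sub_le _ _).trans ?_
      rw [norm_smul, norm_smul, ho, hν', Real.norm_of_nonneg (by linarith), Real.norm_two]
      linarith
    have a2 : ‖s • ((3 + β.η - β.h) • om - (2 : ℝ) • nu v y)‖ ≤ 1 * 6 := by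
      rw [norm_smul, Real.norm_of_nonneg s0.le]
      exact mul_le_mul s1 a1 (norm_nonneg _) zero_le_one
    rw [hE]
    refine (norm_add_le _ _).trans ((add_le_add_left (norm_sub_le _ _) _).trans ?_)
    rw [norm_neg]
    linarith
  have e9 : ⟪E, om⟫ ≤ s / 4 - s * (1 + β.η - β.h) := by
    have a2 := abs_le.1 (abs_inner_le hν'.le ho)
    have a3 := abs_le.1 (abs_inner_le n1 ho)
    rw [hE, inner_add_left, inner_sub_left (-(bs v y - bs v x)), inner_neg_left,
      real_inner_smul_left, inner_sub_left ((3 + β.η - β.h) • om), real_inner_smul_left,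
      real_inner_smul_left, real_inner_self_eq_norm_sq, ho]
    linarith [mul_le_mul_of_nonneg_left a2.2 s0.le]
  have e10 : ‖E‖ ^ 2 / (2 * (σ * L - β.η * r)) ≤ s / 8 := by
    rw [div_le_iff₀ (by linarith)]
    linarith [pow_le_pow_left₀ (norm_nonneg _) e8 2, mul_le_mul_of_nonneg_left l0 s0.le]
  refine test (m := r - σ * L + s) (r := r + s) hv ρm (cap_core ho hν' hk) (by linarith) (z := z)
    ?_ ?_
  · rw [e7]
    have a1 := norm_far_le (E := E) ho (show 0 < σ * L - β.η * r by linarith)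
    have a2 := mul_le_mul_of_nonneg_left (show β.h ≤ 1 / 100 by linarith) s0.le
    linarith
  · have a0 : |r - σ * L + s - dd v y| ≤ 2 * G + 2 := abs_le.2 ⟨by linarith, by linarith⟩
    have a1 := mul_le_mul_of_nonneg_left a0 (hv.tt_nonneg y)
    have a2 : (r - σ * L + s - dd v y) ^ 2 / (2 * (r + s - dd v y)) ≤ s / 8 := by
      rw [div_le_iff₀ (by linarith), ← sq_abs]
      linarith [pow_le_pow_left₀ (abs_nonneg _) a0 2,
        mul_le_mul_of_nonneg_left (show r / 2 ≤ r + s - dd v y by linarith) s0.le]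
    linarith

/-- **COL** -/
theorem colS (n : ℕ) : ColStmt n := by
  intro β C K C2 A e he
  obtain ⟨s, s0, s1, s2⟩ : ∃ s : ℝ, 0 < s ∧ s ≤ 1 ∧ s ≤ e :=
    ⟨min 1 e, lt_min one_pos he, min_le_left _ _, min_le_right _ _⟩
  obtain ⟨k, hk, k0⟩ : ∃ k, k = √(β.η * β.h) ∧ 0 < k :=
    ⟨_, rfl, Real.sqrt_pos.2 (mul_pos β.η0 β.h0)⟩
  have A0 := abs_nonneg A
  have K0 := abs_nonneg K
  obtain ⟨τ, τ0, τ1, τ2⟩ : ∃ τ : ℝ, 0 < τ ∧ τ ≤ k / 20 ∧ τ * (2 * |A| + 3) ≤ s / 16 :=
    ⟨min (k / 20) (s / 16 / (2 * |A| + 3)), by positivity, min_le_left _ _,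
      (le_div_iff₀ (by positivity)).1 (min_le_right _ _)⟩
  obtain ⟨Cs, hc⟩ := cap n β C K C2 τ τ0
  obtain ⟨γ, h1, h2, h⟩ := cap_height n C C2
  refine ⟨max Cs (3 * γ + |A|), fun C3 h3 => ?_⟩
  have c1 := (le_max_left _ _).trans h3
  have c2 := (le_max_right _ _).trans h3
  obtain ⟨M1, m1, hc⟩ := hc C3 c1
  obtain ⟨M2, m2, h⟩ := h K C3 (by linarith)
  obtain ⟨Q, hQ⟩ : ∃ Q, Q = γ + |A| + 5 := ⟨_, rfl⟩
  obtain ⟨M3, m3, h'⟩ := exists_num n C2 ((1000 * Q ^ 2 + 100 * |K|) / s + 40 / k)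
  refine ⟨max M1 (max M2 M3), le_max_of_le_left m1, fun v ρm ε x x0 g w om z G B ct y hy => ?_⟩
  have a1 := hc v ρm ε x x0 g w om z
    { G with val := Val_mono (by linarith) (le_max_left _ _) G.val } B ct
  have a2 := (h β v ρm ε x x0 g w om z { G with
    val := Val_mono (by linarith) (le_max_of_le_right (le_max_left _ _)) G.val } B ct).2.2.2.1
  obtain ⟨hp, l1, big, dl, lo, hi, hN, ht, tilt, base, -, -⟩ := h' β v ρm K C3 x x0 (by linarith)
    { G with val := Val_mono (by linarith) (le_max_of_le_right (le_max_right _ _)) G.val } B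
  have hv : Sol v := G.ps.toPos.toSol
  have p1 : ph0 v x * (1 / ph0 v x) = 1 := mul_one_div_cancel hp.ne'
  have sh := B.sh
  have he0 := sh.unit
  have h8 := G.dep
  obtain ⟨r, hr⟩ : ∃ r, rt β v ρm x = r := ⟨_, rfl⟩
  rw [hr] at h8 lo hi a2 ⊢
  clear h h' hc
  generalize lg v x = l at *
  generalize 1 / ph0 v x = ρ at *
  generalize ph0 v x = p at *
  have l2 : 1 ≤ l ^ 2 := one_le_pow₀ l1
  have Q1 : 1 ≤ Q * l := one_le_mul_of_one_le_of_one_le (by linarith) l1
  have Q2 : Q * l ≤ (Q * l) ^ 2 := le_self_pow₀ Q1 two_ne_zero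
  have Q3 : Q ≤ Q * l := le_mul_of_one_le_right (by linarith) l1
  have u0 : 0 ≤ (1000 * Q ^ 2 + 100 * |K|) / s := by positivity
  have u1 : 0 ≤ 40 / k := by positivity
  have b1 : 1000 * (Q * l) ^ 2 + 100 * |K| ≤ s * ρ := by
    have : (1000 * Q ^ 2 + 100 * |K|) / s * l ^ 2 ≤ ρ := by
      linarith [mul_nonneg u1 (sq_nonneg l)]
    rw [div_mul_eq_mul_div, div_le_iff₀ s0] at this
    linarith [le_mul_of_one_le_right K0 l2]
  have b2 : 40 ≤ k * ρ := by
    have : 40 / k ≤ ρ := by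
      linarith [mul_nonneg u0 (sq_nonneg l), le_mul_of_one_le_right u1 l2]
    rwa [div_le_iff₀' k0] at this
  have ρ0 : 0 < ρ := by
    by_contra h'
    linarith [mul_nonneg k0.le (neg_nonneg.2 (not_lt.1 h'))]
  have b3 := mul_le_of_le_one_left ρ0.le s1
  have sc : ∀ a b, a ≤ b * ρ → p * a ≤ b := fun a b h => by
    have := mul_le_mul_of_nonneg_left h hp.le
    rwa [mul_left_comm, p1, mul_one] at this
  have p2 : p * (1000 * (Q * l) + 100 * |K|) ≤ s := sc _ _ (by linarith)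
  have p3 : p * 40 ≤ k := sc _ _ b2
  have p4 := mul_le_mul_of_nonneg_left Q1 hp.le
  have p5 := mul_nonneg hp.le K0
  have p6 : p ^ 2 ≤ p := pow_le_of_le_one hp.le (by linarith) two_ne_zero
  have p7 : p ^ 5 ≤ p ^ 2 := pow_le_pow_of_le_one hp.le (by linarith) (by norm_num)
  have p8 : p ^ 5 * r ≤ p * |K| := by
    have := mul_le_mul_of_nonneg_left (sc r |K| hi) hp.le
    linarith [mul_le_mul_of_nonneg_right p7 (show 0 ≤ r by linarith [abs_nonneg (dd v x)])]
  have y1 : ‖y - x0‖ ≤ |A| := hy.trans (le_abs_self A)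
  have y2 : |⟪nu v x0, y - x0⟫| ≤ |A| := by rw [real_inner_comm]; exact abs_inner_le y1 he0
  have y3 := abs_le.1 y2
  have c3 : |A| ≤ C3 * l := le_trans (by linarith) (le_mul_of_one_le_right (by linarith) l1)
  have y4 : ‖y - x0‖ ≤ ρ ^ 2 := le_trans (by linarith) (le_self_pow₀ (by linarith) two_ne_zero)
  obtain ⟨k1, k2, k3⟩ := sh.nu_bs hv (by linarith) y4 (by linarith) (by linarith)
  obtain ⟨k4, -, k5⟩ := sh.est y y4 (by linarith) (by linarith)
  have y5 : |dd v y| ≤ |A| + 1 := by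
    linarith [abs_sub_abs_le_abs_sub (dd v y) ⟪nu v x0, y - x0⟫]
  have y6 : ‖bs v y - x0‖ ≤ 2 * |A| + 1 := by
    rw [bs, show y - dd v y • nu v y - x0 = (y - x0) - dd v y • nu v y by abel]
    refine (norm_sub_le _ _).trans ?_
    rw [norm_smul, norm_nu (show 0 < NN v y by linarith), mul_one, Real.norm_eq_abs]
    linarith
  have y7 : ‖nu v y - nu v x‖ ≤ 4 * p ^ 5 := by
    have := norm_sub_le_norm_sub_add_norm_sub (nu v y) (nu v x0) (nu v x)
    rw [norm_sub_rev (nu v x0)] at this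
    linarith
  have y8 : ‖bs v y - bs v x‖ ≤ 2 * |A| + 2 := by
    have := norm_sub_le_norm_sub_add_norm_sub (bs v y) x0 (bs v x)
    rw [norm_sub_rev x0] at this
    linarith
  have q1 := mul_le_mul_of_nonneg_left Q3 hp.le
  have q2 : p ^ 5 * |A| ≤ p * Q := mul_le_mul (p7.trans p6) (by linarith) A0 hp.le
  have y9 : -(s / 8) ≤ ⟪bs v y - bs v x, om⟫ := by
    have e1 : ⟪bs v y - bs v x, om⟫ = ⟪nu v x0, bs v y - x0⟫ + ⟪bs v y - x0, om - nu v x⟫ +
        ⟪bs v y - x0, nu v x - nu v x0⟫ - ⟪bs v x - x0, om⟫ := by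
      rw [real_inner_comm (bs v y - x0), ← inner_add_right, ← inner_add_right,
        show nu v x0 + (om - nu v x) + (nu v x - nu v x0) = om by abel, ← inner_sub_left,
        sub_sub_sub_cancel_right]
    have f1 := abs_le.1 ((abs_real_inner_le_norm (bs v y - x0) (om - nu v x)).trans
      (mul_le_mul y6 a1 (norm_nonneg _) (by linarith)))
    have f2 := abs_le.1 ((abs_real_inner_le_norm (bs v y - x0) (nu v x - nu v x0)).trans
      (mul_le_mul y6 tilt (norm_nonneg _) (by linarith)))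
    have f3 := abs_le.1 (abs_inner_le base ct.unit)
    have f4 := mul_le_mul_of_nonneg_left y5 (show 0 ≤ p ^ 5 by positivity)
    linarith [(abs_le.1 k3).1]
  have γl : γ * l ≤ Q * l := mul_le_mul_of_nonneg_right (by linarith) (by linarith)
  have cl : |C2| * l ≤ Q * l := mul_le_mul_of_nonneg_right (by linarith) (by linarith)
  have sr := mul_le_mul_of_nonneg_left lo s0.le
  have g1 : (2 * |A| + 2 + 7) ^ 2 ≤ (2 * (Q * l)) ^ 2 :=
    pow_le_pow_left₀ (by linarith) (by linarith) 2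
  have g2 : (2 * (Q * l) + 2) ^ 2 ≤ (4 * (Q * l)) ^ 2 :=
    pow_le_pow_left₀ (by linarith) (by linarith) 2
  refine (col_same (G := Q * l) hv ct hr h8 (by linarith) (by linarith) a1 (by linarith) y7
    (by linarith) s0 s1 y8 y9 (by linarith) (by linarith) (by linarith) (by linarith)
    (by linarith) (by linarith) ?_ ?_ (by linarith)).trans (by linarith)
  · linarith [mul_le_mul_of_nonneg_right (ht.trans (p7.trans p6)) (show 0 ≤ Q * l by linarith)]
  · linarith [mul_le_mul_of_nonneg_right (k5.trans (p7.trans p6))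
      (show 0 ≤ 2 * (Q * l) + 2 by linarith)]

end Crest.Agent.N067.M
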