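import Crest.Agent.N067.F.Sl
import Crest.Agent.N067.U.Ue

/-!
# Row 67, FLUX, case F (helper10): the HALF lemma in height form

Above a flat sheet, in a half ball where `v > 0`, the function `exp (√2 (height - d))` is a
subsolution of `Δ - 2 √2 v ∂_e`.
-/

set_option autoImplicit false
set_option linter.unusedVariables false

open InnerProductSpace Set Metric Topology Filter Laplacian
open scoped RealInnerProductSpace Gradient

namespace Crest.Agent.N067.M.Pn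

open Crest.Agent.R077 Crest.Agent.N067.V Crest.Agent.N067.M.Wd

variable {n : ℕ} {v : EE n → ℝ}

theorem L_exp {f : EE n → ℝ} {z : EE n} (hf : ContDiffAt ℝ 2 f z) (c : ℝ) (e : EE n) :
    (Δ fun y => Real.exp (f y)) z - c * fderiv ℝ (fun y => Real.exp (f y)) z e =
      Real.exp (f z) * ((Δ f) z + ‖fderiv ℝ f z‖ ^ 2 - c * fderiv ℝ f z e) := by
  rw [lap_comp hf Real.contDiff_exp.contDiffAt (Eventually.of_forall Real.hasDerivAt_exp)
    (Real.hasDerivAt_exp _), gsq_eq, norm_grad,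
    (hf.differentiableAt (by norm_num)).hasFDerivAt.exp.fderiv]
  simp only [smul_apply, smul_eq_mul]
  ring

theorem v_ge (hv : Sol v) {z : EE n} (h : 3 ≤ dd v z) : 4 / 5 ≤ v z := by
  have h1 := hv.psi_le_exp z
  have h2 : (4 : ℝ) ≤ Real.sqrt 2 * |dd v z| := by
    have : 4 / 3 ≤ Real.sqrt 2 := Real.le_sqrt_of_sq_le (by norm_num)
    rw [abs_of_nonneg (by linarith)]
    nlinarith
  have h3 : Real.exp (-(Real.sqrt 2 * |dd v z|)) ≤ 1 / 13 := by
    rw [Real.exp_neg, inv_le_comm₀ (Real.exp_pos _) (by norm_num)]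
    have := Real.quadratic_le_exp_of_nonneg (show (0 : ℝ) ≤ 4 by norm_num)
    exact le_trans (by norm_num at this ⊢; linarith) (Real.exp_le_exp.2 h2)
  have h4 := pos_of_dd hv (show 0 < dd v z by linarith)
  have h5 : psi v z = 1 - v z ^ 2 := rfl
  nlinarith

theorem hasF_height (e y z : EE n) : HasFDerivAt (fun w => ⟪e, w - y⟫) (innerSL ℝ e) z := by
  simpa [inner_sub_right] using ((innerSL ℝ e).hasFDerivAt (x := z)).sub_const ⟪e, y⟫

theorem cd_height (e y : EE n) : ContDiff ℝ 2 fun w : EE n => ⟪e, w - y⟫ :=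
  contDiff_const.inner ℝ (contDiff_id.sub contDiff_const)

theorem lap_height (e y z : EE n) : (Δ fun w : EE n => ⟪e, w - y⟫) z = 0 := by
  simp only [inner_sub_right]
  rw [lap_sub_const (f := fun w => ⟪e, w⟫) (innerSL ℝ e).contDiff.contDiffAt, lap_inner]

theorem norm_fd_om (hv : Sol v) (e y z : EE n) :
    ‖fderiv ℝ (fun w => ⟪e, w - y⟫ - dd v w) z‖ = ‖nn v z - e‖ := by
  rw [((hasF_height e y z).fun_sub (hv.dd_diff z).hasFDerivAt).fderiv, norm_sub_rev (nn v z),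
    ← innerSL_apply_norm ℝ (e - nn v z)]
  congr 1
  ext w
  simp [nn]

theorem tt_le_two (hv : Sol v) {e : EE n} (he : ‖e‖ = 1) (z : EE n) :
    tt v z ≤ 2 * ‖nn v z - e‖ := by
  have h1 : tt v z = 1 - ‖nn v z‖ ^ 2 := rfl
  have h2 := norm_sub_norm_le e (nn v z)
  rw [norm_sub_rev, he] at h2
  nlinarith [sq_nonneg (1 - ‖nn v z‖)]

/-- the subsolution -/
theorem sub_om (hv : Sol v) {e : EE n} (he : ‖e‖ = 1) (y z : EE n) :
    0 ≤ (Δ fun w => √2 * (⟪e, w - y⟫ - dd v w)) z +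
      ‖fderiv ℝ (fun w => √2 * (⟪e, w - y⟫ - dd v w)) z‖ ^ 2 -
      2 * √2 * v z * fderiv ℝ (fun w => √2 * (⟪e, w - y⟫ - dd v w)) z e := by
  have hd := (hasF_height e y z).fun_sub (hv.dd_diff z).hasFDerivAt
  have h2 : √2 * √2 = 2 := Real.mul_self_sqrt (by norm_num)
  have h3 := norm_fd_om hv e y z
  rw [hd.fderiv] at h3
  rw [lap_const_mul ((cd_height e y).sub (hv.dd_cd 2)).contDiffAt,
    lap_sub' (cd_height e y).contDiffAt (hv.dd_cd 2).contDiffAt, lap_height, hv.lap_dd,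
    (hd.const_mul √2).fderiv, norm_smul, h3, mul_pow, Real.norm_eq_abs, sq_abs,
    Real.sq_sqrt (by norm_num)]
  have h4 : fderiv ℝ (dd v) z e = ⟪nn v z, e⟫ := (inner_grad _ _ _).symm
  have h5 : tt v z = 1 - ‖nn v z‖ ^ 2 := rfl
  have h6 := norm_sub_sq_real (nn v z) e
  simp only [smul_apply, sub_apply, innerSL_apply_apply,
    smul_eq_mul, real_inner_self_eq_norm_sq, he, h4] at h6 ⊢
  have h7 := mul_nonneg (sub_nonneg.2 (abs_lt.1 (hv.lt z)).2.le) (sq_nonneg ‖nn v z - e‖)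
  have e1 : √2 * (0 - -√2 * v z * tt v z) = 2 * v z * tt v z := by
    linear_combination (v z * tt v z) * h2
  have e2 : 2 * √2 * v z * (√2 * (1 ^ 2 - ⟪nn v z, e⟫)) = 4 * v z * (1 - ⟪nn v z, e⟫) := by
    linear_combination (2 * v z * (1 - ⟪nn v z, e⟫)) * h2
  rw [e1, e2, h5]
  have e3 : v z * ‖nn v z - e‖ ^ 2 = v z * (‖nn v z‖ ^ 2 - 2 * ⟪nn v z, e⟫ + 1) := by
    rw [h6]; ring
  linarith

/-- the strict supersolution -/
theorem sup_bar {e : EE n} (he : ‖e‖ = 1) (q z : EE n) (c0 : ℝ) {c : ℝ} (hc : 9 / 4 ≤ c) :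
    (Δ fun w => 2 * ⟪e, w - q⟫ + 1 / 20 * √(‖w - q‖ ^ 2 + (n + 1) ^ 2) + c0) z +
      ‖fderiv ℝ (fun w => 2 * ⟪e, w - q⟫ + 1 / 20 * √(‖w - q‖ ^ 2 + (n + 1) ^ 2) + c0) z‖ ^ 2 -
      c * fderiv ℝ (fun w => 2 * ⟪e, w - q⟫ + 1 / 20 * √(‖w - q‖ ^ 2 + (n + 1) ^ 2) + c0) z e
        < 0 := by
  have hn : (0 : ℝ) ≤ n := n.cast_nonneg
  have hL : (0 : ℝ) < n + 1 := by positivity
  have hs := contDiff_sqrtbar (k := 2) hL q
  have hD := (hs.differentiable (by norm_num) z).hasFDerivAt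
  have h1 := norm_fderiv_sqrtbar hL q z
  have h2 := lap_sqrtbar hL q z
  have hq : (n : ℝ) + 1 ≤ √(‖z - q‖ ^ 2 + (n + 1) ^ 2) :=
    Real.le_sqrt_of_sq_le (by nlinarith [sq_nonneg ‖z - q‖])
  have h3 : ‖z - q‖ / √(‖z - q‖ ^ 2 + (n + 1) ^ 2) ≤ 1 :=
    (div_le_one (by linarith)).2 (Real.le_sqrt_of_sq_le (by nlinarith))
  have h4 : (n : ℝ) / √(‖z - q‖ ^ 2 + (n + 1) ^ 2) ≤ 1 := (div_le_one (by linarith)).2 (by linarith)
  have c1 : ContDiff ℝ 2 fun w : EE n => 2 * ⟪e, w - q⟫ := contDiff_const.mul (cd_height e q)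
  have c2 : ContDiff ℝ 2 fun w : EE n => 1 / 20 * √(‖w - q‖ ^ 2 + (n + 1) ^ 2) :=
    contDiff_const.mul hs
  rw [lap_add' (c1.add c2).contDiffAt contDiffAt_const, lap_const,
    lap_add' c1.contDiffAt c2.contDiffAt, lap_const_mul (cd_height e q).contDiffAt, lap_height,
    lap_const_mul hs.contDiffAt,
    ((((hasF_height e q z).const_mul 2).fun_add (hD.const_mul (1 / 20))).add_const c0).fderiv]
  generalize fderiv ℝ (fun z : EE n => √(‖z - q‖ ^ 2 + (n + 1) ^ 2)) z = A at *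
  have a1 : ‖A‖ ≤ 1 := by linarith
  have a2 : |A e| ≤ 1 := (A.le_opNorm e).trans (by rw [he, mul_one]; exact a1)
  have a3 : ‖(2 : ℝ) • innerSL ℝ e + (1 / 20 : ℝ) • A‖ ≤ 41 / 20 := by
    refine (norm_add_le _ _).trans ?_
    rw [norm_smul, norm_smul, innerSL_apply_norm, he]
    norm_num
    linarith
  have a4 := pow_le_pow_left₀ (norm_nonneg _) a3 2
  simp only [add_apply, smul_apply, innerSL_apply_apply,
    smul_eq_mul, real_inner_self_eq_norm_sq, he]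
  nlinarith [abs_le.1 a2]

/-- **HALF**, values -/
theorem half0 (n : ℕ) : ∃ S0 : ℝ, 2 ≤ S0 ∧ ∀ v : EE n → ℝ, Sol v → ∀ (y e q : EE n) (R δ : ℝ),
    ‖e‖ = 1 → 0 ≤ δ → (∀ w ∈ closedBall q (R + S0), 1 ≤ ⟪e, w - y⟫ → 0 < v w) →
    (∀ w ∈ closedBall q R, 0 ≤ ⟪e, w - y⟫ → ⟪e, w - y⟫ ≤ S0 → |dd v w - ⟪e, w - y⟫| ≤ δ) →
    0 ≤ ⟪e, q - y⟫ → ⟪e, q - y⟫ ≤ R →
    |dd v q - ⟪e, q - y⟫| ≤ δ + Real.exp (2 * ⟪e, q - y⟫ - R / 20 + (n + 1) / 20) := by
  obtain ⟨C, hC, hb⟩ := ball_dd n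
  refine ⟨4 * C + 9, by linarith, fun v hv y e q R δ he hδ hZ hP h0 hR => ?_⟩
  have hR0 : 0 ≤ R := h0.trans hR
  have ee : ⟪e, e⟫ = (1 : ℝ) := by rw [real_inner_self_eq_norm_sq, he]; norm_num
  have hin : ∀ w, |⟪e, w⟫| ≤ ‖w‖ := fun w =>
    (abs_real_inner_le_norm _ _).trans (by rw [he, one_mul])
  have hE := Real.exp_pos (2 * ⟪e, q - y⟫ - R / 20 + (n + 1) / 20)
  have deep : ∀ w ∈ closedBall q R, 4 * C + 9 ≤ ⟪e, w - y⟫ → 3 < dd v w := by
    intro w hw hs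
    have h1 := hb v hv w w (4 * C + 8) (fun z hz => hZ z (by
      rw [mem_closedBall] at *
      linarith [dist_triangle z w q, mem_ball.1 hz]) (by
      have := abs_le.1 (hin (z - w))
      have := mem_ball_iff_norm.1 hz
      rw [show z - y = (z - w) + (w - y) by abel, inner_add_right]
      linarith)) (by simp; positivity)
    have h2 : √(‖w - w‖ ^ 2 + C * (4 * C + 8)) ≤ 2 * C + 2 :=
      Real.sqrt_le_iff.2 ⟨by positivity, by simp only [sub_self, norm_zero]; nlinarith⟩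
    linarith
  rw [abs_le]
  refine ⟨?_, ?_⟩
  swap
  · have e1 : ⟪e, q - ⟪e, q - y⟫ • e - y⟫ = 0 := by
      rw [sub_right_comm, inner_sub_right _ (q - y), real_inner_smul_right, ee]; ring
    have e2 : ‖q - (q - ⟪e, q - y⟫ • e)‖ = ⟪e, q - y⟫ := by
      rw [sub_sub_cancel, norm_smul, he, mul_one, Real.norm_of_nonneg h0]
    have h1 := hP (q - ⟪e, q - y⟫ • e) (by rw [mem_closedBall_iff_norm', e2]; exact hR)
      (by rw [e1]) (by rw [e1]; linarith)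
    have h2 := hv.abs_dd_sub_le q (q - ⟪e, q - y⟫ • e)
    rw [e1] at h1
    rw [e2] at h2
    linarith [abs_le.1 h1, abs_le.1 h2]
  rcases le_total ⟪e, q - y⟫ (4 * C + 9) with hs | hs
  · linarith [abs_le.1 (hP q (mem_closedBall_self hR0) h0 hs)]
  set f1 : EE n → ℝ := fun w => √2 * (⟪e, w - y⟫ - dd v w) with hf1
  set f2 : EE n → ℝ := fun w => 2 * ⟪e, w - q⟫ + 1 / 20 * √(‖w - q‖ ^ 2 + (n + 1) ^ 2) +
    (2 * ⟪e, q - y⟫ - R / 20) with hf2
  have hL : (0 : ℝ) < n + 1 := by positivity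
  have c1 : ContDiff ℝ 2 f1 := contDiff_const.mul ((cd_height e y).sub (hv.dd_cd 2))
  have c2 : ContDiff ℝ 2 f2 := ((contDiff_const.mul (cd_height e q)).add
    (contDiff_const.mul (contDiff_sqrtbar hL q))).add contDiff_const
  have hdc : Continuous (dd v) := (hv.dd_cd 0).continuous
  have hhc := (cd_height e y).continuous
  have hK : IsCompact (closedBall q R ∩ ({w | 0 ≤ ⟪e, w - y⟫} ∩ {w | 3 ≤ dd v w})) :=
    (isCompact_closedBall q R).inter_right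
      ((isClosed_le continuous_const hhc).inter (isClosed_le continuous_const hdc))
  have hq : q ∈ closedBall q R ∩ ({w | 0 ≤ ⟪e, w - y⟫} ∩ {w | 3 ≤ dd v w}) :=
    ⟨mem_closedBall_self hR0, h0, (deep q (mem_closedBall_self hR0) hs).le⟩
  obtain ⟨m, hm, hmin⟩ := hK.exists_isMinOn (f := fun w => Real.exp (f2 w) - Real.exp (f1 w))
    ⟨q, hq⟩ (c2.exp.sub c1.exp).continuous.continuousOn
  have s1 : 1 ≤ √2 := Real.le_sqrt_of_sq_le (by norm_num)
  have s2 : √2 ≤ 2 := Real.sqrt_le_iff.2 ⟨by norm_num, by norm_num⟩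
  have key : -Real.exp (√2 * δ) ≤ Real.exp (f2 m) - Real.exp (f1 m) := by
    by_contra hneg
    have m1 : 0 ≤ ⟪e, m - y⟫ := hm.2.1
    have m2 : 3 ≤ dd v m := hm.2.2
    have p1 := Real.exp_pos (f2 m)
    have p2 := Real.exp_pos (√2 * δ)
    have a1 : √2 * δ < f1 m := Real.exp_lt_exp.1 (by linarith)
    have a2 : δ < ⟪e, m - y⟫ - dd v m := lt_of_mul_lt_mul_left a1 (by linarith)
    have a3 : 4 * C + 9 < ⟪e, m - y⟫ := by
      by_contra a4
      linarith [abs_le.1 (hP m hm.1 m1 (not_lt.1 a4))]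
    have a4 : ‖m - q‖ < R := by
      refine lt_of_le_of_ne (mem_closedBall_iff_norm.1 hm.1) fun a5 => ?_
      have a6 : R ≤ √(‖m - q‖ ^ 2 + (n + 1) ^ 2) :=
        Real.le_sqrt_of_sq_le (by rw [a5]; nlinarith)
      have a7 : ⟪e, m - y⟫ = ⟪e, m - q⟫ + ⟪e, q - y⟫ := by rw [← inner_add_right]; simp
      have a8 : f1 m ≤ f2 m := by
        simp only [hf1, hf2]
        nlinarith
      linarith [Real.exp_le_exp.2 a8]
    have hn : closedBall q R ∩ ({w | 0 ≤ ⟪e, w - y⟫} ∩ {w | 3 ≤ dd v w}) ∈ 𝓝 m :=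
      inter_mem (closedBall_mem_nhds_of_mem (mem_ball_iff_norm.2 a4)) (inter_mem
        (hhc.continuousAt.eventually (le_mem_nhds (by linarith : (0 : ℝ) < ⟪e, m - y⟫)))
        (hdc.continuousAt.eventually (le_mem_nhds (deep m hm.1 a3.le))))
    have hl := hmin.isLocalMin hn
    have l1 := laplacian_nonneg_of_isLocalMin (c2.exp.sub c1.exp).contDiffAt hl
    rw [lap_sub' c2.exp.contDiffAt c1.exp.contDiffAt] at l1
    have g1 := sub_eq_zero.1 (hl.hasFDerivAt_eq_zero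
      ((c2.exp.differentiable (by norm_num) m).hasFDerivAt.sub
        (c1.exp.differentiable (by norm_num) m).hasFDerivAt))
    have e1 := L_exp (c1.contDiffAt (x := m)) (2 * √2 * v m) e
    have e2 := L_exp (c2.contDiffAt (x := m)) (2 * √2 * v m) e
    have b1 := mul_nonneg (Real.exp_pos (f1 m)).le (sub_om hv he y m)
    have b2 := mul_neg_of_pos_of_neg p1 (sup_bar he q m (2 * ⟪e, q - y⟫ - R / 20)
      (c := 2 * √2 * v m) (by
        have : 141 / 100 ≤ √2 := Real.le_sqrt_of_sq_le (by norm_num)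
        nlinarith [v_ge hv m2]))
    rw [g1] at e2
    linarith
  have k1 : Real.exp (f2 m) - Real.exp (f1 m) ≤ Real.exp (f2 q) - Real.exp (f1 q) := hmin hq
  have k2 : f2 q = 2 * ⟪e, q - y⟫ - R / 20 + (n + 1) / 20 := by
    simp only [hf2, sub_self, inner_zero_right, norm_zero]
    rw [show (0 : ℝ) ^ 2 + (n + 1) ^ 2 = (n + 1) ^ 2 by ring, Real.sqrt_sq hL.le]
    ring
  rw [k2] at k1
  by_contra hneg
  have k3 : f1 q = √2 * δ + √2 * (⟪e, q - y⟫ - dd v q - δ) := by simp only [hf1]; ring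
  rw [k3, Real.exp_add (√2 * δ)] at k1
  have k4 := Real.add_one_le_exp (√2 * (⟪e, q - y⟫ - dd v q - δ))
  have k5 := Real.one_le_exp (show 0 ≤ √2 * δ by positivity)
  have k6 : ⟪e, q - y⟫ - dd v q - δ ≤ √2 * (⟪e, q - y⟫ - dd v q - δ) :=
    le_mul_of_one_le_left (by linarith) s1
  have k7 := mul_le_mul_of_nonneg_left k4 (Real.exp_pos (√2 * δ)).le
  have k8 := mul_le_mul_of_nonneg_right k5 (by linarith : 0 ≤ √2 * (⟪e, q - y⟫ - dd v q - δ))
  rw [mul_add] at k7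
  linarith

/-- **HALF** -/
theorem half (n : ℕ) : ∃ S0 C : ℝ, 2 ≤ S0 ∧ 1 ≤ C ∧ ∀ v : EE n → ℝ, Sol v →
    ∀ (y e q : EE n) (R δ : ℝ), ‖e‖ = 1 → 0 ≤ δ →
    (∀ w ∈ closedBall q (R + S0 + 1), 1 ≤ ⟪e, w - y⟫ → 0 < v w) →
    (∀ w ∈ closedBall q (R + 1), |⟪e, w - y⟫| ≤ S0 → |dd v w - ⟪e, w - y⟫| ≤ δ) →
    -1 ≤ ⟪e, q - y⟫ → |⟪e, q - y⟫| + 1 ≤ R →
    |dd v q - ⟪e, q - y⟫| ≤ C * (δ + Real.exp (2 * ⟪e, q - y⟫ - R / 20)) ∧
      ‖nn v q - e‖ ≤ C * (δ + Real.exp (2 * ⟪e, q - y⟫ - R / 20)) ∧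
      tt v q ≤ C * (δ + Real.exp (2 * ⟪e, q - y⟫ - R / 20)) := by
  obtain ⟨S0, hS, h⟩ := half0 n
  have hn : (0 : ℝ) ≤ n := n.cast_nonneg
  have hA : 1 ≤ Real.exp (2 + (n + 1) / 20) := Real.one_le_exp (by positivity)
  refine ⟨S0, (32 * n + 1) * Real.exp (2 + (n + 1) / 20), hS, by nlinarith,
    fun v hv y e q R δ he hδ hZ hP h0 hR => ?_⟩
  have hE := Real.exp_pos (2 * ⟪e, q - y⟫ - R / 20)
  have hR0 : 0 ≤ R := by linarith [abs_nonneg ⟪e, q - y⟫]
  set M := Real.exp (2 + (n + 1) / 20) * (δ + Real.exp (2 * ⟪e, q - y⟫ - R / 20)) with hM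
  have hM1 : δ ≤ M := by rw [hM]; nlinarith
  have hu : ∀ w ∈ closedBall q 1, |⟪e, w - y⟫ - dd v w| ≤ M := by
    intro w hw
    have a1 : |⟪e, w - q⟫| ≤ 1 := ((abs_real_inner_le_norm _ _).trans
      (by rw [he, one_mul])).trans (mem_closedBall_iff_norm.1 hw)
    have a2 : ⟪e, w - y⟫ = ⟪e, w - q⟫ + ⟪e, q - y⟫ := by rw [← inner_add_right]; simp
    have a3 := abs_le.1 a1
    rw [abs_sub_comm]
    rcases le_total 0 ⟪e, w - y⟫ with a4 | a4
    · refine (h v hv y e w R δ he hδ (fun z hz => hZ z ?_) (fun z hz b1 b2 => hP z ?_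
        (by rwa [abs_of_nonneg b1])) a4 (by linarith [le_abs_self ⟪e, q - y⟫])).trans ?_
      · rw [mem_closedBall] at *; linarith [dist_triangle z w q]
      · rw [mem_closedBall] at *; linarith [dist_triangle z w q]
      · have : Real.exp (2 * ⟪e, w - y⟫ - R / 20 + (n + 1) / 20) ≤
            Real.exp (2 + (n + 1) / 20) * Real.exp (2 * ⟪e, q - y⟫ - R / 20) := by
          rw [← Real.exp_add]; exact Real.exp_le_exp.2 (by linarith)
        rw [hM]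
        nlinarith
    · exact (hP w (closedBall_subset_closedBall (by linarith) hw)
        (abs_le.2 ⟨by linarith, by linarith⟩)).trans hM1
  have hM0 : 0 ≤ M := hδ.trans hM1
  have hg := grad_drift_r (u := fun w => ⟪e, w - y⟫ - dd v w) ((cd_height e y).sub (hv.dd_cd 2))
    (x := q) (r := 1) (β := 3) (G := 0) one_pos le_rfl (by norm_num) hu (fun w _ => by
      rw [lap_sub' (cd_height e y).contDiffAt (hv.dd_cd 2).contDiffAt, lap_height, hv.lap_dd,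
        norm_fd_om hv, zero_sub, abs_neg, abs_mul, abs_mul, abs_neg, abs_of_nonneg (hv.tt_nonneg w),
        abs_of_pos sqrt2_pos]
      have s2 : √2 ≤ 3 / 2 := Real.sqrt_le_iff.2 ⟨by norm_num, by norm_num⟩
      have a1 : √2 * |v w| ≤ 3 / 2 := (mul_le_of_le_one_right sqrt2_pos.le (hv.lt w).le).trans s2
      have a2 := mul_le_mul a1 (tt_le_two hv he w) (hv.tt_nonneg w) (by norm_num)
      linarith) le_rfl
  rw [norm_fd_om hv] at hg
  have a1 := hu q (mem_closedBall_self zero_le_one)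
  have a2 := tt_le_two hv he q
  have a3 := mul_nonneg hn hM0
  rw [abs_sub_comm] at a1
  rw [mul_assoc, ← hM]
  exact ⟨by linarith, by linarith, by linarith⟩

end Crest.Agent.N067.M.Pn
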