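import Crest.Agent.N067.M.FDefs

/-! # Row 67, FLUX (helper94): OPP, the gap function on the opposite sheet -/

set_option autoImplicit false

open InnerProductSpace Set Metric
open scoped RealInnerProductSpace Gradient

namespace Crest.Agent.N067.M

open Crest.Agent.R077 Wd

theorem opp (n : ℕ) : OppStmt n := by
  intro β T s s0
  obtain ⟨G, hG⟩ : ∃ G, G = s / 2 + T + 1 := ⟨_, rfl⟩
  refine ⟨4 * G + 32 * G ^ 2 / s, s / 16, by positivity,
    fun v x0 e f R l δ r ρm hv S T0 hl f1 f4 hδ hf y hy => ?_⟩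
  have he := S.bot.unit
  obtain ⟨h, hh⟩ : ∃ h, h = ⟪e, y - x0⟫ := ⟨_, rfl⟩
  have y1 := abs_le.1 (hh ▸ hy.1 : |h - f| ≤ T)
  have y2 : ‖y - (x0 + f • e)‖ ≤ f := hy.2
  have g0 : 0 ≤ 32 * G ^ 2 / s := by positivity
  have e1 : ⟪-e, y - (x0 + f • e)⟫ = f - h := by
    rw [← sub_sub, inner_neg_left, inner_sub_right, inner_smul_right, real_inner_self_eq_norm_sq,
      he, ← hh]; ring
  obtain ⟨a1, a2, a3⟩ := S.top.est y (by linarith) (by linarith) (by linarith)
  rw [e1] at a1
  have δ0 : 0 ≤ δ := (abs_nonneg _).trans a1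
  have δ1 : δ * (4 * G) ≤ s / 16 := (mul_le_mul_of_nonneg_left (by linarith) δ0).trans hδ
  have δ2 : δ * 1 ≤ δ * G := mul_le_mul_of_nonneg_left (by linarith) δ0
  have δ3 : δ ≤ 1 / 2 := by nlinarith only [δ1, hG, δ0, T0, s0]
  have N0 : 0 < NN v y := NN_pos (by linarith)
  have a4 := abs_le.1 a1
  have b0 := β.h0
  have b1 : β.h ≤ 1 / 100 := by linarith [β.h1, β.η1]
  have r0 : 0 ≤ r := by nlinarith only [hf, f1, g0, hG, s0, T0, b0, b1]
  have r1 : f ≤ 2 * r + s / 16 := by linarith [mul_nonneg b0.le r0]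
  obtain ⟨a5, -⟩ := S.bot.est (y - h • e) (by
    have := norm_add_le (y - (x0 + f • e)) ((f - h) • e)
    rw [norm_smul, he, Real.norm_eq_abs, abs_sub_comm,
      show y - (x0 + f • e) + (f - h) • e = y - h • e - x0 by module] at this
    linarith [hh ▸ hy.1]) (by
      rw [sub_right_comm, inner_sub_right, inner_smul_right, real_inner_self_eq_norm_sq, he, ← hh]
      linarith) (by
      rw [sub_right_comm, inner_sub_right, inner_smul_right, real_inner_self_eq_norm_sq, he, ← hh]
      linarith)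
  rw [sub_right_comm, inner_sub_right, inner_smul_right, real_inner_self_eq_norm_sq, he, ← hh] at a5
  have a6 : ‖nu v y - -e‖ ≤ 2 * δ := by
    have := norm_sub_le_norm_sub_add_norm_sub (nu v y) (nn v y) (-e)
    rw [norm_sub_rev (nu v y) (nn v y)] at this
    linarith [norm_nn_sub_nu hv N0]
  have a7 : |s / 2 - dd v y| ≤ G := abs_le.2 ⟨by linarith, by linarith⟩
  refine rt_le_axis (p := y - h • e) (f := f) (A := 7 * (s / 16)) (m := s / 2) hv ρm N0
    (abs_lt.2 ⟨by linarith, by linarith⟩) ?_ (by linarith)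
    (by linarith [mul_le_mul_of_nonneg_right b1 s0.le])
    (by nlinarith only [β.η1, r0, s0]) ?_
  · rw [show y - h • e - (bs v y + f • nu v y) =
      (dd v y - f) • (nu v y - -e) + (f - h - dd v y) • e by rw [bs]; module]
    refine (norm_add_le _ _).trans ?_
    rw [norm_smul, norm_smul, he, Real.norm_eq_abs, Real.norm_eq_abs, abs_sub_comm (f - h)]
    linarith [mul_le_mul (show |dd v y - f| ≤ 3 * f from abs_le.2 ⟨by linarith, by linarith⟩) a6
      (norm_nonneg _) (by linarith)]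
  · have c1 : tt v y * |s / 2 - dd v y| ≤ δ * G := mul_le_mul a3 a7 (abs_nonneg _) δ0
    have c2 : (s / 2 - dd v y) ^ 2 / (2 * (r + s - dd v y)) ≤ s / 16 := by
      have c3 : 32 * G ^ 2 / s ≤ 2 * (r + s - dd v y) := by linarith
      rw [div_le_iff₀ s0] at c3
      rw [div_le_iff₀ (by linarith)]
      linarith [sq_le_sq' (abs_le.1 a7).1 (abs_le.1 a7).2, sq_nonneg G]
    linarith [(abs_le.1 a5).2]

end Crest.Agent.N067.M
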