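import Crest.Agent.N067.F.Pl

/-!
# Row 67, FLUX, case F (helper10): projection of zeros on the axis, zero free slabs
-/

set_option autoImplicit false
set_option linter.unusedVariables false

open InnerProductSpace Set Metric Topology Filter
open scoped RealInnerProductSpace Gradient

namespace Crest.Agent.N067.M.Pn

open Crest.Agent.R077 Crest.Agent.N067.V Crest.Agent.N067.M.Wd

variable {n : ℕ} {v : EE n → ℝ}

/-- all zeros near `b` lie on planes which are parallel to the plane `e^⊥`, with error `ε`: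
the working form of case F -/
structure Par (v : EE n → ℝ) (S ε D : ℝ) (b e : EE n) : Prop where
  sol : Sol v
  unit : ‖e‖ = 1
  S2 : 2 ≤ S
  e0 : 0 ≤ ε
  e1 : ε ≤ 1 / 8
  par : ∀ y ∈ closedBall b D, v y = 0 → ∃ σ : ℝ, (σ = 1 ∨ σ = -1) ∧ ∀ w ∈ closedBall b (2 * D),
    |⟪e, w - y⟫| ≤ S → |dd v w - σ * ⟪e, w - y⟫| ≤ ε ∧ ‖nn v w - σ • e‖ ≤ ε ∧ tt v w ≤ ε ^ 2

/-- **PROJ** -/
theorem par_of_pl (hv : Sol v) {S δ R D ε : ℝ} {b : EE n} (hS : 2 ≤ S) (hδ : 0 ≤ δ) (hD : 1 ≤ D)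
    (hR : 3 * D ≤ R) (hb : v b = 0) (h : ∀ y ∈ closedBall b D, v y = 0 → Pl v (S + 1) δ R y)
    (hε : δ + 3 * D * (2 * δ + 3 * D / R) ≤ ε) (hε1 : ε ≤ 1 / 8) : Par v S ε D b (nu v b) := by
  have hb' := h b (mem_closedBall_self (by linarith)) hb
  have hR0 : 0 < R := by linarith
  have hθ : 0 ≤ 2 * δ + 3 * D / R := by positivity
  have hθ1 : 2 * δ + 3 * D / R ≤ 3 * D * (2 * δ + 3 * D / R) :=
    le_mul_of_one_le_left hθ (by linarith)
  refine ⟨hv, hb'.unit, hS, by linarith, hε1, fun y hy hy0 => ?_⟩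
  have hyb := mem_closedBall_iff_norm.1 hy
  obtain ⟨σ, hσ, h1⟩ := tilt hb' (h y hy hy0) (by linarith) hδ hyb (by linarith) hR0
  refine ⟨σ, hσ, fun w hw hh => ?_⟩
  have hwb := mem_closedBall_iff_norm.1 hw
  have hwy : ‖w - y‖ ≤ 3 * D := by
    have := norm_sub_le_norm_sub_add_norm_sub w b y
    rw [norm_sub_rev b y] at this
    linarith
  have a1 : |⟪nu v y, w - y⟫ - σ * ⟪nu v b, w - y⟫| ≤ 3 * D * (2 * δ + 3 * D / R) := by
    rw [← real_inner_smul_left, ← inner_sub_left, mul_comm]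
    exact (abs_real_inner_le_norm _ _).trans (mul_le_mul h1 hwy (norm_nonneg _) hθ)
  have a2 : |σ * ⟪nu v b, w - y⟫| ≤ S := by
    rcases hσ with rfl | rfl <;> simpa using hh
  obtain ⟨q1, q2, q3⟩ := (h y hy hy0).near w (mem_closedBall_iff_norm.2 (by linarith)) (by
    have := abs_sub_abs_le_abs_sub ⟪nu v y, w - y⟫ (σ * ⟪nu v b, w - y⟫)
    linarith)
  refine ⟨?_, ?_, q3.trans (by gcongr; linarith)⟩
  · have := abs_sub_le (dd v w) ⟪nu v y, w - y⟫ (σ * ⟪nu v b, w - y⟫)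
    linarith
  · linarith [norm_sub_le_norm_sub_add_norm_sub (nn v w) (nu v y) (σ • nu v b)]

/-- from smallness of `t` at the zeros to `Par` -/
theorem par_of_small (n : ℕ) {S : ℝ} (hS : 2 ≤ S) : ∃ K : ℝ, 1 ≤ K ∧ ∀ v : EE n → ℝ, Sol v →
    ∀ (b : EE n) (D R τ ε : ℝ), 1 ≤ D → 3 * D ≤ R → v b = 0 →
      (∀ z ∈ closedBall b (D + R + K), v z = 0 → tt v z ≤ τ) →
      7 * D * (K * √τ * (1 + R) ^ 2) + 9 * D ^ 2 / R ≤ ε → ε ≤ 1 / 8 →
      Par v S ε D b (nu v b) ∧ ∀ w ∈ closedBall b (2 * D), |⟪nu v b, w - b⟫| ≤ S →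
        |dd v w - ⟪nu v b, w - b⟫| ≤ ε ∧ ‖nn v w - nu v b‖ ≤ ε := by
  obtain ⟨K, hK, h⟩ := plane n (S := S + 1) (by linarith)
  refine ⟨K, hK, fun v hv b D R τ ε hD hR hb hF hε hε1 => ?_⟩
  have hR0 : 0 < R := by linarith
  have h0 : 0 ≤ K * √τ * (1 + R) ^ 2 := by positivity
  have h1 : 0 ≤ 9 * D ^ 2 / R := by positivity
  have h2 := mul_le_mul_of_nonneg_right hD h0
  have hp : ∀ y ∈ closedBall b D, v y = 0 → Pl v (S + 1) (K * √τ * (1 + R) ^ 2) R y :=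
    fun y hy hy0 => h v hv y R τ _ hR0.le hy0 (fun z hz => hF z (by
      rw [mem_closedBall] at *
      linarith [dist_triangle z y b])) le_rfl (by linarith)
  refine ⟨par_of_pl hv hS h0 hD hR hb hp ?_ hε1, fun w hw hh => ?_⟩
  · have : 3 * D * (3 * D / R) = 9 * D ^ 2 / R := by ring
    rw [mul_add, this]
    linarith
  · obtain ⟨q1, q2, -⟩ := (hp b (mem_closedBall_self (by linarith)) hb).near w
      (closedBall_subset_closedBall (by linarith) hw) (by linarith)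
    exact ⟨by linarith, by linarith⟩

namespace Par

variable {S ε D : ℝ} {b e : EE n}

theorem neg (h : Par v S ε D b e) : Par v S ε D b (-e) :=
  ⟨h.sol, by rw [norm_neg]; exact h.unit, h.S2, h.e0, h.e1, fun y hy hy0 => by
    obtain ⟨σ, hσ, h1⟩ := h.par y hy hy0
    refine ⟨-σ, by rcases hσ with rfl | rfl <;> simp, fun w hw hh => ?_⟩
    rw [inner_neg_left, abs_neg] at hh
    simpa [inner_neg_left] using h1 w hw hh⟩

theorem ng (h : Par v S ε D b e) : Par (M.ng v) S ε D b e :=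
  ⟨h.sol.neg', h.unit, h.S2, h.e0, h.e1, fun y hy hy0 => by
    obtain ⟨σ, hσ, h1⟩ := h.par y hy (by simpa [M.ng] using hy0)
    have hd : dd (M.ng v) = fun x => -dd v x := funext h.sol.dd_neg'
    have hn : ∀ x, nn (M.ng v) x = -nn v x := fun x => by
      simp only [nn, hd, gradient, fderiv_fun_neg, map_neg]
    refine ⟨-σ, by rcases hσ with rfl | rfl <;> simp, fun w hw hh => ?_⟩
    obtain ⟨q1, q2, q3⟩ := h1 w hw hh
    refine ⟨?_, ?_, ?_⟩
    · rw [hd, ← abs_neg]; convert q1 using 2; ring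
    · rwa [hn, show -nn v w - -σ • e = -(nn v w - σ • e) by module, norm_neg]
    · have : tt (M.ng v) w = tt v w := by
        change 1 - ‖nn (M.ng v) w‖ ^ 2 = 1 - ‖nn v w‖ ^ 2
        rw [hn, norm_neg]
      rwa [this]⟩

/-- change of the centre -/
theorem move (h : Par v S ε D b e) {b' : EE n} {D' : ℝ} (hb : ‖b' - b‖ + D' ≤ D) :
    Par v S ε D' b' e :=
  ⟨h.sol, h.unit, h.S2, h.e0, h.e1, fun y hy hy0 => by
    have h0 := norm_nonneg (b' - b)
    obtain ⟨σ, hσ, h1⟩ := h.par y (by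
      rw [mem_closedBall_iff_norm] at *
      linarith [norm_sub_le_norm_sub_add_norm_sub y b' b]) hy0
    exact ⟨σ, hσ, fun w hw => h1 w (by
      rw [mem_closedBall_iff_norm] at *
      linarith [norm_sub_le_norm_sub_add_norm_sub w b' b])⟩⟩

theorem axis (h : Par v S ε D b e) (s : ℝ) (y : EE n) : ⟪e, b + s • e - y⟫ = s - ⟪e, y - b⟫ := by
  rw [show b + s • e - y = s • e - (y - b) by abel, inner_sub_right, real_inner_smul_right,
    real_inner_self_eq_norm_sq, h.unit]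
  ring

theorem abs_le (h : Par v S ε D b e) (w : EE n) : |⟪e, w⟫| ≤ ‖w‖ :=
  (abs_real_inner_le_norm _ _).trans (by rw [h.unit, one_mul])

theorem axis_mem (h : Par v S ε D b e) {s r : ℝ} (hs : |s| ≤ r) : b + s • e ∈ closedBall b r := by
  rw [mem_closedBall_iff_norm, add_sub_cancel_left, norm_smul, h.unit, mul_one]
  exact hs

/-- a zero at height `a` forces both signs on the axis near the height `a` -/
theorem signs (h : Par v S ε D b e) (hD : 1 ≤ D) {y : EE n} (hy : y ∈ closedBall b D)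
    (hy0 : v y = 0) {c : ℝ} (hc : ε < c) (hc1 : c ≤ 1) :
    v (b + (⟪e, y - b⟫ + c) • e) < 0 ∨ v (b + (⟪e, y - b⟫ - c) • e) < 0 := by
  obtain ⟨σ, hσ, h1⟩ := h.par y hy hy0
  have ha := _root_.abs_le.1 ((h.abs_le (y - b)).trans (mem_closedBall_iff_norm.1 hy))
  have hS := h.S2
  have h0 := h.e0
  have key : ∀ c' : ℝ, |c'| ≤ 1 → |dd v (b + (⟪e, y - b⟫ + c') • e) - σ * c'| ≤ ε := by
    intro c' h2
    have h3 := _root_.abs_le.1 h2
    have := (h1 (b + (⟪e, y - b⟫ + c') • e)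
      (h.axis_mem (_root_.abs_le.2 ⟨by linarith, by linarith⟩))
      (by rw [h.axis, add_sub_cancel_left]; linarith)).1
    rwa [h.axis, add_sub_cancel_left] at this
  rcases hσ with rfl | rfl
  · have := _root_.abs_le.1 (key (-c) (by rw [abs_neg, abs_of_nonneg (by linarith)]; exact hc1))
    exact Or.inr (neg_of_dd h.sol (by rw [sub_eq_add_neg]; linarith))
  · have := _root_.abs_le.1 (key c (by rw [abs_of_nonneg (by linarith)]; exact hc1))
    exact Or.inl (neg_of_dd h.sol (by linarith))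

/-- **ZF**: positivity on the axis gives positivity in the slab -/
theorem pos (h : Par v S ε D b e) (hD : 1 ≤ D) {s1 s2 c : ℝ} (hc : ε < c) (hc1 : c ≤ 1)
    (hax : ∀ s, s1 ≤ s → s ≤ s2 → 0 < v (b + s • e)) {w : EE n} (hw : w ∈ closedBall b D)
    (h1 : s1 + c ≤ ⟪e, w - b⟫) (h2 : ⟪e, w - b⟫ ≤ s2 - c) : 0 < v w := by
  have h0 := h.e0
  have hcv : Convex ℝ (closedBall b D ∩ {w | s1 + c + ⟪e, b⟫ ≤ ⟪e, w⟫} ∩
      {w | ⟪e, w⟫ ≤ s2 - c + ⟪e, b⟫}) :=
    ((convex_closedBall b D).inter (convex_halfSpace_ge (innerSL ℝ e).toLinearMap.isLinear _)).inter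
      (convex_halfSpace_le (innerSL ℝ e).toLinearMap.isLinear _)
  have hm : ∀ x, x ∈ closedBall b D → s1 + c ≤ ⟪e, x - b⟫ → ⟪e, x - b⟫ ≤ s2 - c →
      x ∈ closedBall b D ∩ {w | s1 + c + ⟪e, b⟫ ≤ ⟪e, w⟫} ∩ {w | ⟪e, w⟫ ≤ s2 - c + ⟪e, b⟫} :=
    fun x a1 a2 a3 => by
      rw [inner_sub_right] at a2 a3
      exact ⟨⟨a1, by simp only [mem_ofPred_eq]; linarith⟩, by simp only [mem_ofPred_eq]; linarith⟩
  have e1 : ⟪e, b + ⟪e, w - b⟫ • e - b⟫ = ⟪e, w - b⟫ := by rw [h.axis]; simp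
  refine pos_conv h.sol.sm.continuous hcv (fun x hx hx0 => ?_) (x0 := b + ⟪e, w - b⟫ • e)
    (hm _ (h.axis_mem ((h.abs_le _).trans (mem_closedBall_iff_norm.1 hw))) (by rwa [e1])
      (by rwa [e1])) (hax _ (by linarith) (by linarith)) (hm w hw h1 h2)
  have a2 : s1 + c + ⟪e, b⟫ ≤ ⟪e, x⟫ := hx.1.2
  have a3 : ⟪e, x⟫ ≤ s2 - c + ⟪e, b⟫ := hx.2
  have a4 : ⟪e, x - b⟫ = ⟪e, x⟫ - ⟪e, b⟫ := inner_sub_right _ _ _
  rcases h.signs hD hx.1.1 hx0 hc hc1 with q | q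
  · exact absurd (hax _ (by linarith) (by linarith)) q.not_gt
  · exact absurd (hax _ (by linarith) (by linarith)) q.not_gt

/-- the plane of a zero with `v > 0` just below it on the axis has normal `-e` -/
theorem down (h : Par v S ε D b e) (hD : 1 ≤ D) {y : EE n} (hy : y ∈ closedBall b D)
    (hy0 : v y = 0) {c : ℝ} (hc : ε < c) (hc1 : c ≤ 1) (hp : 0 ≤ v (b + (⟪e, y - b⟫ - c) • e)) :
    ∀ w ∈ closedBall b (2 * D), |⟪e, w - y⟫| ≤ S →
      |dd v w + ⟪e, w - y⟫| ≤ ε ∧ ‖nn v w + e‖ ≤ ε ∧ tt v w ≤ ε ^ 2 := by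
  obtain ⟨σ, hσ, h1⟩ := h.par y hy hy0
  have ha := _root_.abs_le.1 ((h.abs_le (y - b)).trans (mem_closedBall_iff_norm.1 hy))
  have hS := h.S2
  have h0 := h.e0
  rcases hσ with rfl | rfl
  · have := (h1 (b + (⟪e, y - b⟫ - c) • e) (h.axis_mem (_root_.abs_le.2 ⟨by linarith, by linarith⟩))
      (by rw [h.axis, sub_sub_cancel_left, abs_neg, abs_of_nonneg (by linarith)]; linarith)).1
    rw [h.axis, sub_sub_cancel_left] at this
    exact absurd hp (neg_of_dd h.sol (by linarith [_root_.abs_le.1 this])).not_ge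
  · intro w hw hh
    simpa using h1 w hw hh

/-- the plane of a zero with `v > 0` just above it on the axis has normal `e` -/
theorem up (h : Par v S ε D b e) (hD : 1 ≤ D) {y : EE n} (hy : y ∈ closedBall b D)
    (hy0 : v y = 0) {c : ℝ} (hc : ε < c) (hc1 : c ≤ 1) (hp : 0 ≤ v (b + (⟪e, y - b⟫ + c) • e)) :
    ∀ w ∈ closedBall b (2 * D), |⟪e, w - y⟫| ≤ S →
      |dd v w - ⟪e, w - y⟫| ≤ ε ∧ ‖nn v w - e‖ ≤ ε ∧ tt v w ≤ ε ^ 2 := by
  intro w hw hh
  have := h.neg.down hD hy hy0 hc hc1 (by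
    rw [inner_neg_left, show (-⟪e, y - b⟫ - c) • -e = (⟪e, y - b⟫ + c) • e by module]
    exact hp) w hw (by rwa [inner_neg_left, abs_neg])
  simpa [inner_neg_left, sub_eq_add_neg] using this

end Par

/-- first zero on a ray -/
theorem first_zero (hv : Continuous v) (b e : EE n) {s1 s2 : ℝ} (h12 : s1 ≤ s2)
    (h1 : 0 < v (b + s1 • e)) (h2 : v (b + s2 • e) ≤ 0) :
    ∃ f, s1 < f ∧ f ≤ s2 ∧ v (b + f • e) = 0 ∧ ∀ s, s1 ≤ s → s < f → 0 < v (b + s • e) := by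
  have hc : Continuous fun s : ℝ => v (b + s • e) := by fun_prop
  have hcl : IsClosed (Icc s1 s2 ∩ {s : ℝ | v (b + s • e) ≤ 0}) :=
    isClosed_Icc.inter (isClosed_le hc continuous_const)
  obtain ⟨f, hf, hmin⟩ := (isCompact_Icc.of_isClosed_subset hcl inter_subset_left).exists_isLeast
    ⟨s2, right_mem_Icc.2 h12, h2⟩
  have hpos : ∀ s, s1 ≤ s → s < f → 0 < v (b + s • e) := fun s a1 a2 => by
    by_contra a3
    exact absurd (hmin ⟨⟨a1, a2.le.trans hf.1.2⟩, not_lt.1 a3⟩) a2.not_ge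
  have hlt : s1 < f := lt_of_le_of_ne hf.1.1 fun h => absurd hf.2 (by rw [← h]; exact h1.not_ge)
  refine ⟨f, hlt, hf.1.2, ?_, hpos⟩
  obtain ⟨s, hs, hs0⟩ := intermediate_value_Icc' hlt.le hc.continuousOn ⟨hf.2, h1.le⟩
  rcases eq_or_lt_of_le hs.2 with h | h
  · rwa [h] at hs0
  · exact absurd hs0 (hpos s hs.1 h).ne'

end Crest.Agent.N067.M.Pn
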