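import Crest.Agent.N067.U.Src
import Crest.Agent.N067.F.Sl

/-!
# Row 67: SRC on parallel sheets (helper88)
-/

set_option autoImplicit false
set_option linter.dupNamespace false

open MeasureTheory Laplacian InnerProductSpace Topology Filter Set Metric
open scoped RealInnerProductSpace Gradient ContDiff

namespace Crest.Agent.N067.M.Pn

open Crest.Agent.R077 Ker Crest.Agent.N067.V

variable {n : ℕ}

theorem inner_nu_nn {v : EE n → ℝ} {x : EE n} (h : ‖nu v x‖ = 1) :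
    ⟪nu v x, ∇ (dd v) x⟫ = ‖∇ (dd v) x‖ := by
  have h0 : NN v x ≠ 0 := fun h0 => by simp [nu, h0] at h
  change ⟪(NN v x)⁻¹ • nn v x, nn v x⟫ = NN v x
  rw [inner_smul_left, real_inner_self_eq_norm_sq]
  change (NN v x)⁻¹ * NN v x ^ 2 = NN v x
  field_simp

/-- **SRC** above the bottom `b` of a slab whose top sheet passes through `b + f e` -/
theorem src_par (hn : 4 ≤ n) {ε A : ℝ} (hε : 0 < ε) (hA : 0 ≤ A) :
    ∃ C S δ f0 : ℝ, 0 ≤ C ∧ 2 ≤ S ∧ 0 < δ ∧ ∀ (v : EE n → ℝ) (S' η D f : ℝ) (b e q0 q : EE n),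
      Par v S' η D b e → S ≤ S' → η ≤ δ → f0 ≤ f → v (b + f • e) = 0 →
      (∀ s, 1 / 2 ≤ s → s ≤ f - 1 / 2 → 0 < v (b + s • e)) →
      ‖q - b‖ + 4 * f ≤ D → 0 ≤ ⟪e, q - b⟫ → 250 * ⟪e, q - b⟫ ≤ f → ⟪e, q - b⟫ - δ ≤ |dd v q| →
      ‖q - ⟪e, q - b⟫ • e - q0‖ ≤ A → ‖nu v q0‖ = 1 → ‖nu v q0 - e‖ * f ≤ 1 →
      psi v q ^ 2 * tt v q / 4 ≤ C * Real.exp (-(⟪e, q - b⟫ / 4)) * tt v q0 +
        (1 + ε) * (16 * Real.exp (-√2 * f)) := by
  obtain ⟨C, L, δ, f0, hC, hL, hδ, H⟩ := src_ue hn (A := 1) hε zero_le_one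
  obtain ⟨G, hG1, hG⟩ := ue_grad n
  refine ⟨C * Real.exp (G * A), L + 2, δ, max f0 1, by positivity, by linarith, hδ,
    fun v S' η D f b e q0 q h hS hη hf hz hp hq hT0 hT hd hq0 hu hue => ?_⟩
  have hv := h.sol
  have he := h.unit
  have hf1 : 1 ≤ f := (le_max_right _ _).trans hf
  set T := ⟪e, q - b⟫ with hTd
  have hh : ∀ y, ⟪e, y - (q - T • e)⟫ = ⟪e, y - b⟫ := fun y => by
    simp only [hTd, inner_sub_right, inner_smul_right, real_inner_self_eq_norm_sq, he]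
    ring
  have hb : ‖q - T • e - b‖ ≤ ‖q - b‖ + T := by
    rw [show q - T • e - b = (q - b) - T • e by abel]
    refine (norm_sub_le _ _).trans ?_
    rw [norm_smul, he, mul_one, Real.norm_eq_abs, abs_of_nonneg hT0]
  have hq1 := norm_nonneg (q - b)
  have hD : ∀ y, ‖y - (q - T • e)‖ ≤ 3 * f → y ∈ closedBall b D := fun y hy => by
    rw [mem_closedBall_iff_norm]
    linarith [norm_sub_le_norm_sub_add_norm_sub y (q - T • e) b]
  obtain ⟨σ, hσ, hpl⟩ := h.par (b + f • e) (h.axis_mem (by rw [abs_of_nonneg] <;> linarith)) hz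
  have h1 := H v (nu v q0) e (q - T • e) q T f hv hu he hue ((le_max_left _ _).trans hf) hT0 hT
    (by simp) (by rw [hh]; exact hd)
    (fun y hy h1 h2 => h.pos (by linarith) (c := 1 / 2) (by linarith [h.e1]) (by norm_num) hp
      (hD y hy) (by rw [hh] at h1; linarith) (by rw [hh] at h2; linarith))
    (fun y hy h1 => by
      have e1 : ⟪e, y - (b + f • e)⟫ = ⟪e, y - b⟫ - f := by
        simp only [inner_sub_right, inner_add_right, inner_smul_right,
          real_inner_self_eq_norm_sq, he]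
        ring
      rw [hh, ← e1] at h1 ⊢
      have h2 := (hpl y (closedBall_subset_closedBall (by linarith) (hD y (by linarith)))
        (by linarith)).1
      have h3 := abs_sub_abs_le_abs_sub (σ * ⟪e, y - (b + f • e)⟫) (dd v y)
      rw [abs_sub_comm, abs_mul, show |σ| = 1 by rcases hσ with rfl | rfl <;> simp, one_mul] at h3
      linarith)
  have h2 := (hG v _ hv hu).2 q0 (q - T • e)
  have h3 : Real.exp (G * ‖q - T • e - q0‖) ≤ Real.exp (G * A) :=
    Real.exp_le_exp.2 (mul_le_mul_of_nonneg_left hq0 (by linarith))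
  have h4 : ue v (nu v q0) (q - T • e) ≤ Real.exp (G * A) * tt v q0 :=
    h2.trans (mul_le_mul h3 (hv.ue_le_tt (inner_nu_nn hu)) (hv.ue_nonneg hu _) (by positivity))
  have h5 := mul_le_mul_of_nonneg_left h4 (by positivity : 0 ≤ C * Real.exp (-(T / 4)))
  have h6 : 0 ≤ C * Real.exp (G * A) * Real.exp (-(T / 4)) * tt v q0 :=
    mul_nonneg (by positivity) (hv.tt_nonneg q0)
  linarith [hv.P_le_ue hu q]

/-- **SRC** below the top `b + f e` of a slab whose bottom sheet passes through `b` -/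
theorem src_top (hn : 4 ≤ n) {ε A : ℝ} (hε : 0 < ε) (hA : 0 ≤ A) :
    ∃ C S δ f0 : ℝ, 0 ≤ C ∧ 2 ≤ S ∧ 0 < δ ∧ ∀ (v : EE n → ℝ) (S' η D f : ℝ) (b e q0 q : EE n),
      Par v S' η D b e → S ≤ S' → η ≤ δ → f0 ≤ f → v b = 0 →
      (∀ s, 1 / 2 ≤ s → s ≤ f - 1 / 2 → 0 < v (b + s • e)) →
      ‖q - b‖ + 6 * f ≤ D → 0 ≤ f - ⟪e, q - b⟫ → 250 * (f - ⟪e, q - b⟫) ≤ f →
      f - ⟪e, q - b⟫ - δ ≤ |dd v q| →
      ‖q + (f - ⟪e, q - b⟫) • e - q0‖ ≤ A → ‖nu v q0‖ = 1 → ‖nu v q0 + e‖ * f ≤ 1 →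
      psi v q ^ 2 * tt v q / 4 ≤ C * Real.exp (-((f - ⟪e, q - b⟫) / 4)) * tt v q0 +
        (1 + ε) * (16 * Real.exp (-√2 * f)) := by
  obtain ⟨C, S, δ, f0, hC, hS, hδ, H⟩ := src_par hn hε hA
  refine ⟨C, S, δ, max f0 0, hC, hS, hδ,
    fun v S' η D f b e q0 q h hS hη hf hz hp hq hT0 hT hd hq0 hu hue => ?_⟩
  have he := h.unit
  have hf0 : 0 ≤ f := (le_max_right _ _).trans hf
  have e0 : ‖b + f • e - b‖ = f := by
    rw [add_sub_cancel_left, norm_smul, he, mul_one, Real.norm_eq_abs, abs_of_nonneg hf0]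
  have e1 : ⟪-e, q - (b + f • e)⟫ = f - ⟪e, q - b⟫ := by
    simp only [inner_neg_left, inner_sub_right, inner_add_right, inner_smul_right,
      real_inner_self_eq_norm_sq, he]
    ring
  have h1 := H v S' η (D - f) f (b + f • e) (-e) q0 q (h.neg.move (by linarith)) hS hη
    ((le_max_left _ _).trans hf) (by simpa using hz) (fun s h1 h2 => by
      rw [show b + f • e + s • -e = b + (f - s) • e by module]
      exact hp _ (by linarith) (by linarith))
    (by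
      have := norm_sub_le_norm_sub_add_norm_sub q b (b + f • e)
      rw [norm_sub_rev b, e0] at this
      linarith)
    (by rwa [e1]) (by rwa [e1]) (by rwa [e1]) (by rwa [e1, smul_neg, sub_neg_eq_add]) hu
    (by rwa [sub_neg_eq_add])
  rwa [e1] at h1

end Crest.Agent.N067.M.Pn
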