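import Crest.Agent.N067.M.FDefs
import Crest.Agent.N067.F.Src

/-!
# Row 67, FLUX: the leaf SRC (helper88)
-/

set_option autoImplicit false
set_option linter.dupNamespace false

open MeasureTheory InnerProductSpace Topology Filter Set Metric
open scoped RealInnerProductSpace Gradient ContDiff ENNReal

namespace Crest.Agent.N067.M

open Crest.Agent.R077 Crest.Agent.N067.V

variable {n : ℕ}

/-- the unit normal on a sheet -/
theorem Sheet.nu_near {v : EE n → ℝ} {q e y : EE n} {R a b δ : ℝ} (hv : Sol v)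
    (h : Sheet v q e R a b δ) (hδ : δ ≤ 1 / 2) (h1 : ‖y - q‖ ≤ R) (h2 : -a ≤ ⟪e, y - q⟫)
    (h3 : ⟪e, y - q⟫ ≤ b) : ‖nu v y‖ = 1 ∧ ‖nu v y - e‖ ≤ 2 * δ := by
  obtain ⟨-, k2, k3⟩ := h.est y h1 h2 h3
  have hN : 0 < NN v y := by
    have := norm_sub_norm_le e (nn v y)
    rw [h.unit, norm_sub_rev] at this
    change 0 < ‖nn v y‖
    linarith
  have h5 := Wd.norm_nn_sub_nu hv hN
  have h6 := norm_sub_le_norm_sub_add_norm_sub (nu v y) (nn v y) e
  rw [norm_sub_rev (nu v y) (nn v y)] at h6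
  exact ⟨Wd.norm_nu hN, by linarith⟩

theorem src (hn : 4 ≤ n) : SrcStmt n := by
  intro ε hε
  obtain ⟨C, L, δ0, f0, hC, hL, hδ0, H⟩ := src_slab hn (A := 1) hε zero_le_one
  refine ⟨C, L + 1, max f0 2, min δ0 (1 / 2), hC, lt_min hδ0 (by norm_num),
    fun v x0 e q f R T l δ a hv h hT hf hR hδ hl ha hal haf hq => ?_⟩
  have hf2 : 2 ≤ f := (le_max_right _ _).trans hf
  have he := h.bot.unit
  have h0 : 0 ≤ δ := (abs_nonneg _).trans
    (h.bot.est x0 (by simp; linarith) (by simp; linarith) (by simp; linarith)).1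
  have m1 := min_le_left δ0 (1 / 2)
  have m2 := min_le_right δ0 (1 / 2)
  have d1 : 2 * δ ≤ δ * f := by nlinarith
  obtain ⟨u1, u2⟩ := h.bot.nu_near (y := x0) hv (by linarith) (by simp; linarith)
    (by simp; linarith) (by simp; linarith)
  have hn' : ∀ c : ℝ, 0 ≤ c → ‖x0 + c • e - x0‖ = c := fun c hc => by
    rw [add_sub_cancel_left, norm_smul, he, mul_one, Real.norm_eq_abs, abs_of_nonneg hc]
  have hs : ∀ (y : EE n) (c : ℝ), ⟪e, y - (x0 + c • e)⟫ = ⟪e, y - x0⟫ - c := fun y c => by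
    simp only [inner_sub_right, inner_add_right, inner_smul_right, real_inner_self_eq_norm_sq, he]
    ring
  refine H v (nu v x0) e x0 q a f hv u1 (Pn.inner_nu_nn u1) he
    (by linarith [mul_le_mul_of_nonneg_right u2 (show 0 ≤ f by linarith)])
    ((le_max_left _ _).trans hf) ha haf hq ?_ (fun y h1 h2 h3 => h.mid y ?_ (by linarith)
      (by linarith)) fun y h1 h2 => ?_
  · have b1 := abs_real_inner_le_norm e (q - (x0 + a • e))
    rw [hs, he, one_mul, abs_le] at b1
    have b2 := norm_sub_le_norm_sub_add_norm_sub q (x0 + a • e) x0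
    rw [hn' a ha] at b2
    have := (abs_le.1 (h.bot.est q (by linarith) (by linarith [b1.1]) (by linarith [b1.2])).1).1
    linarith [le_abs_self (dd v q)]
  · have := norm_sub_le_norm_sub_add_norm_sub y x0 (x0 + (f / 2) • e)
    rw [norm_sub_rev x0, hn' _ (by linarith)] at this
    linarith
  · have b2 := norm_sub_le_norm_sub_add_norm_sub y x0 (x0 + f • e)
    rw [norm_sub_rev x0, hn' _ (by linarith)] at b2
    obtain ⟨h3, h4⟩ := abs_le.1 h2
    have b3 := (h.top.est y (by linarith) (by rw [inner_neg_left, hs]; linarith)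
      (by rw [inner_neg_left, hs]; linarith)).1
    rw [inner_neg_left, hs] at b3
    have b4 := abs_sub_abs_le_abs_sub (-(⟪e, y - x0⟫ - f)) (dd v y)
    rw [abs_sub_comm, abs_neg] at b4
    linarith

end Crest.Agent.N067.M
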