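import Crest.Agent.N067.F.Tops0
import Crest.Agent.N067.F.Cap

/-! # Row 67, FLUX, case F (helper10): the slab at the `+` cut -/

set_option autoImplicit false
set_option linter.unusedVariables false

open InnerProductSpace Set Metric Topology Filter
open scoped RealInnerProductSpace Gradient

namespace Crest.Agent.N067.M

open Crest.Agent.R077 Crest.Agent.N067.V Crest.Agent.N067.M.Wd Crest.Agent.N067.M.Pn

/-- the zero near the contact point is high -/
def CapH (n : ℕ) : Prop := ∀ (β : Bo) (C K C2 : ℝ), ∃ g : ℝ, 1 ≤ g ∧ ∀ C3, 3 * g ≤ C3 →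
  ∃ M : ℝ, 1 ≤ M ∧ ∀ (v : EE n → ℝ) (ρm ε : ℝ) (x x0 g' w om z : EE n), Geo β v ρm M C2 K x →
    Bot v C3 x x0 → Ct β v ρm ε C x g' w om z → ∃ z0, v z0 = 0 ∧ ‖z0 - z‖ ≤ g * lg v x ∧
      (2 - β.h) * rt β v ρm x - 3 ≤ ⟪nu v x0, z0 - x0⟫

theorem Pn.deep_num {d t r u l : ℝ} (hu : 0 < u) (hd : |d| + 1 ≤ l) (ht0 : 0 ≤ t) (ht : t ≤ u)
    (h8 : 8 * |d| + 8 ≤ r) (hr : 1 / (2 * u) ≤ r) (h : 32 * l ^ 2 * u ≤ 1) :
    0 < 1 / 8 - t * |1 / 8 - d| - (1 / 8 - d) ^ 2 / (2 * (r - d)) := by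
  have h0 := abs_nonneg d
  have h1 := le_abs_self d
  have a1 : |1 / 8 - d| ≤ l := (abs_sub _ _).trans (by rw [abs_of_pos (by norm_num)]; linarith)
  have a2 : (1 / 8 - d) ^ 2 ≤ l ^ 2 := sq_le_sq' (abs_le.1 a1).1 (abs_le.1 a1).2
  have a3 : t * |1 / 8 - d| ≤ u * l ^ 2 := mul_le_mul ht (by nlinarith) (abs_nonneg _) hu.le
  have a4 : (1 / 8 - d) ^ 2 / (2 * (r - d)) ≤ 2 * l ^ 2 * u := by
    rw [div_le_iff₀ (by linarith)]
    rw [div_le_iff₀ (by positivity)] at hr
    have a5 := mul_le_mul_of_nonneg_left (show r ≤ 2 * (r - d) by linarith) hu.le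
    have a6 := mul_le_mul_of_nonneg_left (show 1 ≤ 2 * (u * (2 * (r - d))) by linarith)
      (sq_nonneg l)
    linarith
  linarith

set_option maxHeartbeats 1600000 in
theorem tops_of {n : ℕ} (hcap : CapH n) : TopsStmt n := by
  intro β C K C2 T e he0
  obtain ⟨g, hg, hcap⟩ := hcap β C K C2
  obtain ⟨S0, C0, hS0, hC0, H⟩ := top_of n
  have pT := abs_nonneg T
  have pK := abs_nonneg K
  have p2 := abs_nonneg C2
  obtain ⟨A, hA, hp⟩ := par_ff n (S := S0 + |T|) (by linarith)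
  refine ⟨3 * g + |C2| + 2, fun C3 h3 => ?_⟩
  obtain ⟨M1, hM1, hcap⟩ := hcap C3 (by linarith)
  have hq : 0 < √(β.η * β.h) := Real.sqrt_pos.2 (mul_pos β.η0 β.h0)
  have q1 : 0 < 100 * (|K| + 1) / e := by positivity
  have q2 : 0 < 50 / √(β.η * β.h) := by positivity
  have q3 : 0 ≤ 32 * C3 ^ 2 := by positivity
  set B := 42 * C3 + 120 + (S0 + |T|) + 4 with hB
  obtain ⟨M2, hM2, hs⟩ := small_log (A + 83 * C0 + 4 * B + 32 * C3 ^ 2 + 40 * |K| +
    100 * (|K| + 1) / e + 50 / √(β.η * β.h))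
  refine ⟨max M1 M2, le_max_of_le_left hM1, fun v ρm ε x x0 g' w om z G hb hc hd2 => ?_⟩
  have hv : Sol v := G.ps.toSol
  have h0 := val_pos hv G.val
  obtain ⟨z0, hz0, hz1, hz2⟩ := hcap v ρm ε x x0 g' w om z
    ⟨G.ps, Val_mono (by linarith) (le_max_left _ _) G.val, G.ff, G.dep, G.lo, G.hi, G.fit⟩ hb hc
  obtain ⟨s1, s2, s3⟩ := hs _ h0
    (G.val.1.le.trans (one_div_le_one_div_of_le (by linarith) (le_max_right _ _)))
  have hd := G.val.2.1.le
  have hL : Real.log (1 / ph0 v x) = lg v x := rfl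
  rw [hL] at s1 s2 s3 hd
  have hL1 : 1 ≤ lg v x := by linarith
  have hL3 : 1 ≤ lg v x ^ 3 := one_le_pow₀ hL1
  have hLL : lg v x ≤ lg v x ^ 3 := by simpa using pow_le_pow_right₀ hL1 (by norm_num : 1 ≤ 3)
  have hL2 : lg v x ^ 2 ≤ lg v x ^ 3 := pow_le_pow_right₀ hL1 (by norm_num)
  have hsm : ∀ a, 0 ≤ a → a ≤ A + 83 * C0 + 4 * B + 32 * C3 ^ 2 + 40 * |K| +
      100 * (|K| + 1) / e + 50 / √(β.η * β.h) →
      a * ph0 v x ≤ 1 ∧ a * lg v x * ph0 v x ≤ 1 ∧ a * lg v x ^ 2 * ph0 v x ≤ 1 := by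
    intro a a0 a1
    have a2 : a * lg v x ^ 3 * ph0 v x ≤ 1 := le_trans (by gcongr) s2
    exact ⟨le_trans (mul_le_mul_of_nonneg_right (le_mul_of_one_le_right a0 hL3) h0.le) a2,
      le_trans (by gcongr) a2, le_trans (by gcongr) a2⟩
  have n1 := (hsm A (by linarith) (by linarith)).1
  have n2 := (hsm (83 * C0) (by linarith) (by linarith)).1
  have n3 := (hsm (4 * B) (by linarith) (by linarith)).2.1
  have n4 := (hsm _ q3 (by linarith)).2.2
  have n5 := (hsm (40 * |K|) (by linarith) (by linarith)).1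
  have n6 := (hsm _ q1.le (by linarith)).1
  have n7 := (hsm _ q2.le (by linarith)).1
  have n8 := (hsm 100 (by linarith) (by linarith)).1
  clear hsm s2 hcap hs
  have h8 := G.dep
  have hlo := G.lo
  have hhi : rt β v ρm x * ph0 v x ≤ |K| := G.hi.trans (le_abs_self K)
  have hd' : |dd v x| + 1 ≤ C3 * lg v x := by
    have a1 : C2 * lg v x ≤ |C2| * lg v x := by gcongr; exact le_abs_self _
    have a2 := mul_le_mul_of_nonneg_right (show |C2| + 1 ≤ C3 by linarith) (by linarith : 0 ≤ lg v x)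
    linarith
  have hCB : C3 * lg v x ≤ B * lg v x := by gcongr; linarith
  have hgC : g * lg v x + 1 ≤ C3 * lg v x := by
    have a2 := mul_le_mul_of_nonneg_right (show g + 1 ≤ C3 by linarith) (by linarith : 0 ≤ lg v x)
    linarith
  have hTC : T ≤ C3 * lg v x := by
    have a2 := mul_le_mul_of_nonneg_right (show 1 ≤ C3 by linarith) (by linarith : 0 ≤ lg v x)
    linarith [le_abs_self T]
  have hHB : 42 * (C3 * lg v x) + 20 * (6 * lg v x) + (S0 + |T|) + 4 ≤ B * lg v x := by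
    have a2 := le_mul_of_one_le_right (show 0 ≤ S0 + |T| + 4 by linarith) hL1
    rw [hB]; linarith
  have m1 : 4 * (B * lg v x) ≤ 1 / ph0 v x := by rw [le_div_iff₀ h0]; linarith
  have m2 : 100 ≤ 1 / ph0 v x := by rw [le_div_iff₀ h0]; linarith
  have m3 : 100 * (1 / ph0 v x) ≤ (1 / ph0 v x) ^ 2 := by
    rw [sq]; exact mul_le_mul_of_nonneg_right m2 (by positivity)
  have m4 : 40 * rt β v ρm x ≤ (1 / ph0 v x) ^ 2 := by
    rw [one_div, inv_pow, ← one_div, le_div_iff₀ (by positivity)]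
    have := mul_le_mul_of_nonneg_right hhi h0.le
    linarith
  have m5 : 1 / ph0 v x ≤ 2 * rt β v ρm x := by
    rw [div_le_iff₀ (by positivity)] at hlo
    rw [div_le_iff₀ h0]; linarith
  have u1 : ph0 v x ^ 5 ≤ ph0 v x ^ 3 := pow_le_pow_of_le_one h0.le (by linarith) (by norm_num)
  have u2 : ph0 v x ^ 3 ≤ ph0 v x := by
    simpa using pow_le_pow_of_le_one h0.le (by linarith : ph0 v x ≤ 1) (by norm_num : 1 ≤ 3)
  have u3 : (1 / ph0 v x) ^ 2 * ph0 v x ^ 5 = ph0 v x ^ 3 := by field_simp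
  have u4 := pow_pos h0 5
  have u5 : rt β v ρm x * ph0 v x ^ 5 ≤ ph0 v x / 40 := by
    have := mul_le_mul_of_nonneg_right m4 u4.le
    linarith
  have u6 : 100 * ph0 v x ≤ e := by
    rw [div_mul_eq_mul_div, div_le_one he0] at n6
    have := mul_nonneg pK h0.le
    linarith
  have u7 : 4 * ph0 v x ^ 5 < √(β.η * β.h) / 10 := by
    rw [div_mul_eq_mul_div, div_le_one hq] at n7
    linarith
  have he := hb.sh.unit
  have hnear := hb.near
  have hxx : ‖x - x0‖ ≤ |dd v x| + 1 := by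
    have b1 := norm_sub_le_norm_sub_add_norm_sub x (x0 + dd v x • nu v x0) x0
    rw [add_sub_cancel_left, norm_smul, he, mul_one, Real.norm_eq_abs] at b1
    linarith
  have hxh := abs_le.1 ((abs_in he (x - x0)).trans hxx)
  obtain ⟨-, -, htx⟩ := hb.sh.est x (by linarith) (by linarith) (by linarith)
  obtain ⟨hν1, hν⟩ := hb.sh.nu_near hv (y := x) (by linarith) (by linarith) (by linarith)
    (by linarith)
  have hN : 1 / 2 ≤ NN v x := by linarith [one_sub_NN hv x]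
  obtain ⟨P, -⟩ := hp v x x0 hv h0 n1 G.ff ((dd_zero_iff hv).1 hb.zero)
    (by rw [norm_sub_rev]; linarith)
  have hda := abs_nonneg (dd v x)
  have hq3 : ⟪nu v x0, x0 + (1 / 4 : ℝ) • nu v x0 - x0⟫ = 1 / 4 := by
    rw [axis_in he, sub_self, inner_zero_right, sub_zero]
  have hq4 := (hb.sh.est (x0 + (1 / 4 : ℝ) • nu v x0) (mem_closedBall_iff_norm.1
      (axis_ball he x0 (by rw [abs_of_pos (by norm_num)]; linarith)))
    (by rw [hq3]; linarith) (by rw [hq3]; linarith)).1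
  rw [hq3] at hq4
  clear hq3
  have hsh := hb.sh
  have hzero := hb.zero
  generalize nu v x0 = E at *
  have hax : ∀ s, |s| ≤ (1 / ph0 v x) ^ 2 →
      ‖x0 + s • E - (bs v x + s • nu v x)‖ ≤ 4 * ph0 v x := fun s hs => by
    rw [show x0 + s • E - (bs v x + s • nu v x) = (dd v x - s) • (nu v x - E) -
      (x - (x0 + dd v x • E)) by rw [bs]; module]
    have a1 : ‖(dd v x - s) • (nu v x - E)‖ ≤
        (5 / 4 * (1 / ph0 v x) ^ 2) * (2 * ph0 v x ^ 5) := by
      rw [norm_smul, Real.norm_eq_abs]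
      exact mul_le_mul ((abs_sub _ _).trans (by linarith)) hν (norm_nonneg _) (by positivity)
    refine (norm_sub_le _ _).trans ?_
    linarith
  have hb0 : ‖bs v x - x0‖ ≤ 4 * ph0 v x := by
    rw [norm_sub_rev]; simpa using hax 0 (by rw [abs_zero]; positivity)
  have hzx : ‖z - x0‖ ≤ 5 * rt β v ρm x + 1 := by
    linarith [ct_dist hv hc hN h8, norm_sub_le_norm_sub_add_norm_sub z (bs v x) x0]
  have hz0x : ‖z0 - x0‖ ≤ (1 / ph0 v x) ^ 2 / 4 := by
    linarith [norm_sub_le_norm_sub_add_norm_sub z0 z x0]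
  have ha0 := (abs_le.1 (abs_in he (z0 - x0))).2
  have k0 := β.h0
  have k1 := β.h1
  have k2 := β.η1
  have k3 := β.η0
  have hr0 : 0 ≤ rt β v ρm x := by linarith
  have k4 : 199 / 100 * rt β v ρm x ≤ (2 - β.h) * rt β v ρm x :=
    mul_le_mul_of_nonneg_right (by linarith) hr0
  have k5 : (2 - β.h) * rt β v ρm x ≤ 2 * rt β v ρm x :=
    mul_le_mul_of_nonneg_right (by linarith) hr0
  have k6 : 1 / 2 * rt β v ρm x ≤ (1 - 2 * β.η) * rt β v ρm x :=
    mul_le_mul_of_nonneg_right (by linarith) hr0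
  obtain ⟨f, f1, f2, f3, f4⟩ : ∃ f, 1 / 4 < f ∧ f ≤ ⟪E, z0 - x0⟫ + 1 / 4 ∧ v (x0 + f • E) = 0 ∧
      ∀ s, 1 / 4 ≤ s → s < f → 0 < v (x0 + s • E) := by
    have a1 : 0 < v (x0 + (1 / 4 : ℝ) • E) := pos_of_dd hv (by linarith [abs_le.1 hq4])
    rcases P.signs (by linarith) (mem_closedBall_iff_norm.2 (by linarith)) hz0 (c := 1 / 4)
      (by linarith [P.e1]) (by norm_num) with q | q
    · exact first_zero hv.sm.continuous x0 E (by linarith) a1 q.le
    · obtain ⟨f, b1, b2, b3⟩ := first_zero hv.sm.continuous x0 E (by linarith) a1 q.le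
      exact ⟨f, b1, by linarith, b3⟩
  have f5 : (2 - β.h) * rt β v ρm x - 1 / 4 ≤ f := by
    by_contra a1
    have a2 := deep hv (by linarith) G.fit (by linarith [abs_nonneg (dd v x)]) (m := 1 / 8)
      (A := 1 / 8) ((hax f (by rw [abs_of_pos (by linarith)]; linarith)).trans (by linarith))
      (by linarith) (by linarith) (by linarith)
    rw [(dd_zero_iff hv).2 f3] at a2
    exact absurd a2 (deep_num h0 hd' (hv.tt_nonneg x) (by linarith) h8 hlo
      (by rw [mul_pow]; linarith)).not_ge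
  obtain ⟨t1, t2, t3⟩ := H v x0 E (S0 + |T|) _ ((1 / ph0 v x) ^ 2) f (C3 * lg v x) (6 * lg v x)
    (ph0 v x ^ 5) P (by linarith) (by linarith) (by linarith) f3 f4 (by linarith) (by linarith) (by
      rw [exp_six s3, pow_succ (ph0 v x) 5]
      have := mul_le_mul_of_nonneg_right n2 u4.le
      linarith)
  have hzl : ⟪E, z0 - x0⟫ - g * lg v x ≤ ⟪E, z - x0⟫ := by
    have a1 := (abs_le.1 ((abs_in he (z0 - z)).trans hz1)).2
    have a2 : ⟪E, z0 - x0⟫ = ⟪E, z0 - z⟫ + ⟪E, z - x0⟫ := by rw [← inner_add_right]; simp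
    linarith
  have hzu : ⟪E, z - x0⟫ ≤ f + 1 := by
    by_contra a1
    have a2 : ‖cen v x (rt β v ρm x) w - bs v x‖ ≤ 101 / 100 * rt β v ρm x := by
      rw [cen_eq, add_assoc, add_sub_cancel_left, ← smul_add, norm_smul, Real.norm_of_nonneg hr0,
        mul_comm]
      exact mul_le_mul_of_nonneg_right ((norm_add_le _ _).trans (by linarith [hc.mem.1])) hr0
    have a3 := norm_sub_le_norm_sub_add_norm_sub (cen v x (rt β v ρm x) w) (bs v x) x0
    have a4 := (abs_le.1 (abs_in he (cen v x (rt β v ρm x) w - x0))).2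
    obtain ⟨p, b1, b2⟩ := (convex_segment (cen v x (rt β v ρm x) w) z).isPreconnected.intermediate_value
      (left_mem_segment ℝ _ _) (right_mem_segment ℝ _ _) (cd_height E x0).continuous.continuousOn
      (show f + 1 ∈ _ from ⟨by linarith, by linarith⟩)
    have b3 : p ∈ closedBall x0 (6 * (1 / ph0 v x) ^ 2) := (convex_closedBall _ _).segment_subset
      (mem_closedBall_iff_norm.2 (by linarith)) (mem_closedBall_iff_norm.2 (by linarith)) b1
    linarith [t3 p (mem_closedBall_iff_norm.1 b3) b2, ct_seg hc G.fit h8 b1,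
      ct_low hv hc hN h8 htx]
  have hsp : ⟪-E, z - (x0 + f • E)⟫ = f - ⟪E, z - x0⟫ := by
    rw [inner_neg_left, ← sub_sub, inner_sub_right _ (z - x0), real_inner_smul_right,
      real_inner_self_eq_norm_sq, he]; ring
  have hfE : ‖x0 - (x0 + f • E)‖ = f := by
    rw [sub_add_cancel_left, norm_neg, norm_smul, he, mul_one, Real.norm_of_nonneg (by linarith)]
  obtain ⟨z1, z2, z3⟩ := t1.est z (by
    linarith [norm_sub_le_norm_sub_add_norm_sub z x0 (x0 + f • E)])
    (by rw [hsp]; linarith) (by rw [hsp]; linarith)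
  rw [hsp] at z1
  obtain ⟨c1, c2, c3⟩ := ct_pos hv hc hN h8 z2 z3 htx hν u7
  have c4 : ‖z - (x0 + ((2 - β.h) * rt β v ρm x - dd v x) • E)‖ ≤ 5 * ph0 v x := by
    have a1 := hax ((2 - β.h) * rt β v ρm x - dd v x)
      (abs_le.2 ⟨by linarith [le_abs_self (dd v x)], by linarith⟩)
    rw [norm_sub_rev] at a1
    linarith [norm_sub_le_norm_sub_add_norm_sub z
      (bs v x + ((2 - β.h) * rt β v ρm x - dd v x) • nu v x)
      (x0 + ((2 - β.h) * rt β v ρm x - dd v x) • E)]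
  have c5 : |f - (2 - β.h) * rt β v ρm x| ≤ 7 * ph0 v x := by
    have a1 := abs_le.1 ((abs_in he _).trans c4)
    rw [← sub_sub, inner_sub_right _ (z - x0), real_inner_smul_right, real_inner_self_eq_norm_sq,
      he] at a1
    rw [abs_le] at z1 c2 ⊢
    constructor <;> linarith [a1.1, a1.2, z1.1, z1.2, c2.1, c2.2]
  refine ⟨f, ⟨hzero, (dd_zero_iff hv).2 f3, hsh.mono le_rfl hTC le_rfl le_rfl,
    t1.mono le_rfl (by linarith [le_abs_self T]) le_rfl le_rfl, fun y a1 a2 a3 => t2 y ?_ a2 a3⟩,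
    by linarith, ?_, ?_, z3, by linarith⟩
  · have := norm_sub_le_norm_sub_add_norm_sub y (x0 + (f / 2) • E) x0
    rw [add_sub_cancel_left, norm_smul, he, mul_one, Real.norm_of_nonneg (by linarith)] at this
    linarith
  · rw [show z - (x0 + (f - dd v x) • E) = (z - (x0 + ((2 - β.h) * rt β v ρm x - dd v x) • E)) -
      (f - (2 - β.h) * rt β v ρm x) • E by module]
    refine (norm_sub_le _ _).trans ?_
    rw [norm_smul, he, mul_one, Real.norm_eq_abs]
    linarith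
  · have := mul_le_mul_of_nonneg_left c1 hr0
    linarith

/-- **TOPS** -/
theorem tops (n : ℕ) : TopsStmt n := tops_of fun β C K C2 => by
  obtain ⟨g, hg, -, h⟩ := cap_height n C C2
  refine ⟨g, hg, fun C3 h3 => ?_⟩
  obtain ⟨M, hM, h⟩ := h K C3 h3
  refine ⟨M, hM, fun v ρm ε x x0 g' w om z G hb hc => ?_⟩
  obtain ⟨⟨z0, h1, h2, -, h3⟩, -⟩ := h β v ρm ε x x0 g' w om z G hb hc
  exact ⟨z0, h1, h2, h3⟩

end Crest.Agent.N067.M
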