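import Crest.Agent.N067.F.Bot
import Crest.Agent.N067.F.SrcS

/-! # Row 67, FLUX, case F (helper10): the slab at the `+` cut, preparations -/

set_option autoImplicit false
set_option linter.unusedVariables false

open InnerProductSpace Set Metric Topology Filter
open scoped RealInnerProductSpace Gradient

namespace Crest.Agent.N067.M.Pn

open Crest.Agent.R077 Crest.Agent.N067.V Crest.Agent.N067.M.Wd

variable {n : ℕ} {v : EE n → ℝ} {β : Bo} {ρm ε C : ℝ} {x g w om z : EE n}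

theorem ct_low (hv : Sol v) (hc : Ct β v ρm ε C x g w om z) (hN : 1 / 2 ≤ NN v x)
    (h8 : 8 * |dd v x| + 8 ≤ rt β v ρm x) {δ : ℝ} (ht : tt v x ≤ δ) :
    dd v x - 3 * (rt β v ρm x * δ) ≤ dd v z := by
  have hN0 : 0 < NN v x := by linarith
  have h1 := ct_dd hc hN0 h8
  have h2 := ct_tt hN0 z
  have h3 := abs_le.1 (le_refl |dd v x|)
  have h4 := abs_nonneg (dd v x)
  have t1 := hv.tt_nonneg x
  have t2 := hv.tt_nonneg z
  generalize 1 - (NN v z / NN v x) ^ 2 = a at *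
  generalize rt β v ρm x = r at *
  have a1 : -(2 * δ) ≤ NN v x * a := by
    by_contra h
    nlinarith
  have a2 := mul_le_mul_of_nonneg_left a1 (by linarith : 0 ≤ r - dd v x)
  have a3 := mul_le_mul_of_nonneg_right (by linarith : r - dd v x ≤ 3 * r) (by linarith : 0 ≤ δ)
  nlinarith

theorem ct_seg (hc : Ct β v ρm ε C x g w om z) (hf : Fit β v x (rt β v ρm x))
    (h8 : 8 * |dd v x| + 8 ≤ rt β v ρm x) {p : EE n}
    (hp : p ∈ segment ℝ (cen v x (rt β v ρm x) w) z) : dd v z ≤ dd v p := by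
  have h3 := le_abs_self (dd v x)
  have h4 := abs_nonneg (dd v x)
  have h1 : ‖p - cen v x (rt β v ρm x) w‖ ≤ ‖z - cen v x (rt β v ρm x) w‖ :=
    mem_closedBall_iff_norm.1 ((convex_closedBall _ _).segment_subset
      (mem_closedBall_self (norm_nonneg _)) (mem_closedBall_iff_norm.2 le_rfl) hp)
  refine le_trans ?_ (hf w hc.mem p)
  rw [hc.eq, PP, PP]
  exact add_le_add_right (gp_anti (NN_nonneg v x) (by linarith)
    (add_nonneg (norm_nonneg _) (mul_nonneg β.η0.le (by linarith))) (by linarith)) _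

theorem ct_dist (hv : Sol v) (hc : Ct β v ρm ε C x g w om z) (hN : 1 / 2 ≤ NN v x)
    (h8 : 8 * |dd v x| + 8 ≤ rt β v ρm x) : ‖z - bs v x‖ ≤ 5 * rt β v ρm x := by
  have hN0 : 0 < NN v x := by linarith
  have h3 := abs_le.1 (le_refl |dd v x|)
  have h4 := abs_nonneg (dd v x)
  have h1 := norm_top (β := β) (b := bs v x) (norm_nu hN0) hc.unit hc.mem
    (by linarith : 0 ≤ rt β v ρm x)
  rw [ct_top hc] at h1
  have s0 : 0 ≤ NN v z / NN v x := div_nonneg (NN_nonneg v z) hN0.le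
  have s1 : NN v z / NN v x ≤ 2 := by rw [div_le_iff₀ hN0]; linarith [NN_le hv z]
  generalize NN v z / NN v x = σ at *
  generalize rt β v ρm x = r at *
  have h2 : ‖(r - σ * (r - dd v x)) • om‖ ≤ 3 * r := by
    rw [norm_smul, hc.unit, mul_one, Real.norm_eq_abs, abs_le]
    constructor <;> nlinarith
  have := norm_sub_le (z + (r - σ * (r - dd v x)) • om - bs v x) ((r - σ * (r - dd v x)) • om)
  rw [add_sub_right_comm, add_sub_cancel_right] at this
  rw [add_sub_right_comm] at h1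
  linarith

theorem ct_pos (hv : Sol v) (hc : Ct β v ρm ε C x g w om z) (hN : 1 / 2 ≤ NN v x)
    (h8 : 8 * |dd v x| + 8 ≤ rt β v ρm x) {δ : ℝ} {e : EE n} (h1 : ‖nn v z - -e‖ ≤ δ)
    (h2 : tt v z ≤ δ) (h3 : tt v x ≤ δ) (h4 : ‖nu v x - e‖ ≤ 2 * δ)
    (h5 : 4 * δ < √(β.η * β.h) / 10) :
    ‖om - nu v x‖ ≤ 4 * δ ∧ |dd v z - dd v x| ≤ 3 * (rt β v ρm x * δ) ∧
      ‖z - (bs v x + ((2 - β.h) * rt β v ρm x - dd v x) • nu v x)‖ ≤ 22 * (rt β v ρm x * δ) := by
  have hN0 : 0 < NN v x := by linarith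
  have k1 := ct_dd hc hN0 h8
  have k2 := ct_tt hN0 z
  have k3 := abs_le.1 (le_refl |dd v x|)
  have k4 := abs_nonneg (dd v x)
  have t1 := hv.tt_nonneg x
  have t2 := hv.tt_nonneg z
  have hδ : 0 ≤ δ := t1.trans h3
  have a1 : ‖om - nu v x‖ ≤ 4 * δ := by
    have b1 : om - nu v x = (1 - NN v z) • om - (nn v z - -e) - (nu v x - e) := by
      rw [hc.grad]; module
    have b2 : ‖(1 - NN v z) • om‖ ≤ δ := by
      rw [norm_smul, hc.unit, mul_one, Real.norm_of_nonneg (by linarith [NN_le hv z])]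
      linarith [one_sub_NN hv z]
    rw [b1]
    linarith [norm_sub_le ((1 - NN v z) • om - (nn v z - -e)) (nu v x - e),
      norm_sub_le ((1 - NN v z) • om) (nn v z - -e)]
  have k5 := ct_top hc
  have k6 := top_cap (β := β) (b := bs v x) (ν := nu v x) (om := om)
    (by linarith : 0 ≤ rt β v ρm x)
  rw [← hc.cap (by linarith), k5] at k6
  have s0 : 0 ≤ NN v z / NN v x := div_nonneg (NN_nonneg v z) hN0.le
  have hN1 := NN_le hv x
  generalize NN v z / NN v x = σ at *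
  generalize rt β v ρm x = r at *
  have a2 : |1 - σ ^ 2| ≤ 4 * δ := by
    have b1 : |NN v x ^ 2 * (1 - σ ^ 2)| ≤ δ := abs_le.2 ⟨by linarith, by linarith⟩
    rw [abs_mul, abs_of_nonneg (sq_nonneg _)] at b1
    nlinarith [abs_nonneg (1 - σ ^ 2), mul_le_mul_of_nonneg_right
      (show 1 / 4 ≤ NN v x ^ 2 by nlinarith) (abs_nonneg (1 - σ ^ 2))]
  have a3 : |1 - σ| ≤ 4 * δ := by
    rw [show 1 - σ ^ 2 = (1 - σ) * (1 + σ) by ring, abs_mul, abs_of_nonneg (by linarith : 0 ≤ 1 + σ)]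
      at a2
    nlinarith [abs_nonneg (1 - σ)]
  have hL0 : 0 ≤ r - dd v x := by linarith
  have hL1 : r - dd v x ≤ 9 / 8 * r := by linarith
  refine ⟨a1, ?_, ?_⟩
  · rw [k1, add_sub_cancel_left, abs_div, abs_mul, abs_mul, abs_of_pos hN0, abs_of_nonneg hL0,
      abs_two]
    have := mul_le_mul (mul_le_mul hN1 hL1 hL0 zero_le_one) a2 (abs_nonneg _) (by linarith)
    nlinarith
  · rw [show z - (bs v x + ((2 - β.h) * r - dd v x) • nu v x) =
      (z + (r - σ * (r - dd v x)) • om - (bs v x + ((2 - β.h) * r) • nu v x)) -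
        dd v x • (om - nu v x) - ((1 - σ) * (r - dd v x)) • om by module]
    have b1 : ‖dd v x • (om - nu v x)‖ ≤ r / 8 * (4 * δ) := by
      rw [norm_smul, Real.norm_eq_abs]
      exact mul_le_mul (by linarith) a1 (norm_nonneg _) (by linarith)
    have b2 : ‖((1 - σ) * (r - dd v x)) • om‖ ≤ 4 * δ * (9 / 8 * r) := by
      rw [norm_smul, hc.unit, mul_one, Real.norm_eq_abs, abs_mul, abs_of_nonneg hL0]
      exact mul_le_mul a3 hL1 hL0 (by linarith)
    have b3 := mul_le_mul_of_nonneg_left a1 (by linarith : 0 ≤ 4 * r)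
    have b4 := mul_nonneg (by linarith : 0 ≤ r) hδ
    refine (norm_sub_le _ _).trans ((add_le_add_left (norm_sub_le _ _) _).trans ?_)
    linarith

/-- the top sheet and the middle of the slab -/
theorem top_of (n : ℕ) : ∃ S0 C : ℝ, 2 ≤ S0 ∧ 1 ≤ C ∧ ∀ (v : EE n → ℝ) (x0 e : EE n)
    (S ε R f l L δ : ℝ), Par v S ε (3 * R) x0 e → S0 ≤ S → 0 ≤ l → 0 ≤ L →
    v (x0 + f • e) = 0 → (∀ s, 1 / 4 ≤ s → s < f → 0 < v (x0 + s • e)) → f ≤ R →
    42 * l + 20 * L + S + 3 ≤ f → C * (ε + Real.exp (-L)) ≤ δ →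
    Sheet v (x0 + f • e) (-e) R S l δ ∧
      (∀ y, ‖y - x0‖ ≤ 3 * R → 1 / 2 ≤ ⟪e, y - x0⟫ → ⟪e, y - x0⟫ ≤ f - 1 / 2 → 0 < v y) ∧
      ∀ y, ‖y - x0‖ ≤ 6 * R → ⟪e, y - x0⟫ = f + 1 → dd v y < 0 := by
  obtain ⟨S0, C, hS0, hC, H⟩ := sheet_of n
  refine ⟨S0, C, hS0, hC, fun v x0 e S ε R f l L δ P hS hl hL h0 hax hf hH hδ => ?_⟩
  have he := P.unit
  have e1 := P.e1
  have hmid : ∀ y, ‖y - x0‖ ≤ 3 * R → 1 / 2 ≤ ⟪e, y - x0⟫ → ⟪e, y - x0⟫ ≤ f - 1 / 2 → 0 < v y :=
    fun y a1 a2 a3 => P.pos (by linarith) (c := 1 / 4) (s1 := 1 / 4) (s2 := f - 1 / 4)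
      (by linarith) (by norm_num) (fun s b1 b2 => hax s b1 (by linarith))
      (mem_closedBall_iff_norm.2 a1) (by linarith) (by linarith)
  have hh : ⟪e, x0 + f • e - x0⟫ = f := by rw [axis_in he]; simp
  have hd := P.down (by linarith) (axis_ball he x0 (r := 3 * R)
    (by rw [abs_of_nonneg (by linarith)]; linarith)) h0 (c := 1 / 4) (by linarith) (by norm_num)
    (by rw [hh]; exact (hax _ (by linarith) (by linarith)).le)
  have hsp : ∀ y, ⟪e, y - (x0 + f • e)⟫ = ⟪e, y - x0⟫ - f := fun y => by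
    rw [← sub_sub, inner_sub_right _ (y - x0), real_inner_smul_right, real_inner_self_eq_norm_sq,
      he]; ring
  have hn : ∀ y, ‖y - x0‖ ≤ ‖y - (x0 + f • e)‖ + f := fun y => by
    have := norm_sub_le_norm_sub_add_norm_sub y (x0 + f • e) x0
    rwa [add_sub_cancel_left, norm_smul, he, mul_one, Real.norm_of_nonneg (by linarith)] at this
  refine ⟨H v P.sol _ (-e) S ε R l L δ (by rw [norm_neg, he]) hS P.e0 hl hL
    (fun y a1 a2 => ?_) (fun y a1 a2 a3 => ?_) hδ, hmid, fun y a1 a2 => ?_⟩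
  · rw [inner_neg_left, abs_neg] at a2
    obtain ⟨q1, q2, -⟩ := hd y (mem_closedBall_iff_norm.2 (by linarith [hn y])) a2
    rw [inner_neg_left, sub_neg_eq_add, sub_neg_eq_add]
    exact ⟨q1, q2⟩
  · rw [inner_neg_left, hsp] at a2 a3
    exact hmid y (by linarith [hn y]) (by linarith) (by linarith)
  · have := (hd y (mem_closedBall_iff_norm.2 (by linarith))
      (by rw [hsp, a2, add_sub_cancel_left, abs_one]; linarith)).1
    rw [hsp, a2, add_sub_cancel_left] at this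
    linarith [abs_le.1 this]

end Crest.Agent.N067.M.Pn
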